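import Vale.Agent.P188.Norm

/-!
Transport of the top contraction along a coarse equivalence, averaging over the group, and
clearing denominators.
-/

universe u v w

namespace Vale.Agent.P188

open Finsupp Pointwise

/-- Lists whose entries lie in `x * E`. -/
def Nr {H : Type u} [Group H] (x : H) (E : Set H) : Set (List H) := On {y | x⁻¹ * y ∈ E}

lemma exists_local_contraction {H : Type u} {Z : Type v} [Group H] [Group Z] {n : ℕ}
    (hc : CoarseEquiv H Z) (hZ : PolyZ n Z) :
    ∃ k : Ch H →ₗ[ℤ] Ch H,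
      (∀ u ∈ Sp (Gr (n + 1) : Set (List H)), k u ∈ Sp (Gr (n + 2))) ∧
      (∀ u ∈ Sp (Gr (n + 2) : Set (List H)), bd (k (bd u)) = bd u) ∧
      (∀ A : Set H, A.Finite → ∃ E : Set H, E.Finite ∧ ∃ M : ℤ, ∀ (x : H) (t : List H),
        (x :: t) ∈ Ctl A ∩ Gr (n + 1) → k (single (x :: t) 1) ∈ Sp (Nr x E) ∧
          ∀ l, |k (single (x :: t) 1) l| ≤ M) := by
  classical
  obtain ⟨F, F', hF, hF', ⟨E₀, hE₀, hE₀'⟩, _⟩ := hc
  obtain ⟨k, hk_eq, hk_mem, hk_bd⟩ := top_contraction n Z hZ
  refine ⟨pf F' ∘ₗ k ∘ₗ pf F - pr (F' ∘ F), ?_, ?_, ?_⟩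
  · intro u hu
    apply Submodule.sub_mem
    · exact pf_mem (fun l hl => by simpa [Gr] using hl)
        (hk_mem _ (pf_mem (fun l hl => by simpa [Gr] using hl) hu))
    · exact pr_mem (fun l hl l' _ h2 => by rw [mem_Gr] at *; omega) hu
  · intro u hu
    have hFu : pf F u ∈ Sp (Gr (n + 2)) := pf_mem (fun l hl => by simpa [Gr] using hl) hu
    have h1 := bd_pr (F' ∘ F) (bd u)
    rw [bd_bd, map_zero, add_zero] at h1
    show bd (pf F' (k (pf F (bd u))) - pr (F' ∘ F) (bd u)) = bd u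
    rw [map_sub, bd_pf, ← bd_pf F, hk_bd _ hFu, bd_pf F, pf_comp, h1]
    abel
  · intro A hA
    obtain ⟨A₁, hA₁, hA₁'⟩ := hF A hA
    -- bounds for the finitely many normalised lists
    have hfin := finite_lists hA₁ (n + 1)
    obtain ⟨M₁, hM₁⟩ : ∃ M₁ : ℤ, ∀ l ∈ (On A₁ ∩ Gr (n + 1) : Set (List Z)),
        nm (k (single l 1)) ≤ M₁ := by
      obtain ⟨M, hM⟩ := (hfin.image (fun l => nm (k (single l 1)))).bddAbove
      exact ⟨M, fun l hl => hM ⟨l, hl, rfl⟩⟩
    let E₁ : Set Z := ⋃ l ∈ (On A₁ ∩ Gr (n + 1) : Set (List Z)),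
      ⋃ l' ∈ (↑(k (single l 1)).support : Set (List Z)), {y | y ∈ l'}
    have hE₁ : E₁.Finite := by
      apply hfin.biUnion
      intro l _
      apply (Finset.finite_toSet _).biUnion
      intro l' _
      exact List.finite_toSet l'
    obtain ⟨E₂, hE₂, hE₂'⟩ := hF' E₁ hE₁
    refine ⟨E₀ * E₂ ∪ (A ∪ A * E₀), (hE₀.mul hE₂).union (hA.union (hA.mul hE₀)),
      M₁ + (n + 1 : ℕ), ?_⟩
    rintro x t ⟨hl, hl'⟩
    have hxy : ∀ y ∈ x :: t, x⁻¹ * y ∈ A := fun y hy => hl x (by simp) y hy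
    -- normalise
    have hnorm : ((x :: t).map F).map (fun y => (F x)⁻¹ • y) ∈
        (On A₁ ∩ Gr (n + 1) : Set (List Z)) := by
      refine ⟨?_, by simpa [Gr] using hl'⟩
      intro y hy
      rw [List.map_map, List.mem_map] at hy
      obtain ⟨y', hy', rfl⟩ := hy
      exact hA₁' x y' (hxy y' hy')
    have hkk : k (pf F (single (x :: t) 1)) = act (F x)
        (k (single (((x :: t).map F).map (fun y => (F x)⁻¹ • y)) 1)) := by
      rw [← hk_eq, act_single, pf_single, List.map_map]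
      congr 2
      have : ((fun y => F x • y) ∘ fun y => (F x)⁻¹ • y) = (id : Z → Z) := by
        funext y; exact smul_inv_smul _ _
      rw [this, List.map_id]
    have hsupp : k (single (((x :: t).map F).map (fun y => (F x)⁻¹ • y)) 1) ∈ Sp (On E₁) := by
      rw [mem_Sp]
      intro l h y hy
      exact Set.mem_biUnion hnorm (Set.mem_biUnion (by simpa using h) hy)
    constructor
    · show pf F' (k (pf F (single (x :: t) 1))) - pr (F' ∘ F) (single (x :: t) 1) ∈ _
      apply Submodule.sub_mem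
      · rw [hkk]
        have h2 : act (F x) (k (single (((x :: t).map F).map (fun y => (F x)⁻¹ • y)) 1)) ∈
            Sp (On {y | (F x)⁻¹ * y ∈ E₁}) := by
          apply pf_mem _ hsupp
          intro l hl y hy
          rw [List.mem_map] at hy
          obtain ⟨y', hy', rfl⟩ := hy
          show (F x)⁻¹ * (F x • y') ∈ E₁
          rw [smul_eq_mul, inv_mul_cancel_left]
          exact hl y' hy'
        apply pf_mem _ h2
        intro l hl y hy
        rw [List.mem_map] at hy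
        obtain ⟨y', hy', rfl⟩ := hy
        refine Or.inl ⟨x⁻¹ * F' (F x), hE₀' x, (F' (F x))⁻¹ * F' y', hE₂' _ _ (hl y' hy'), ?_⟩
        simp only
        group
      · rw [pr_single, one_smul]
        apply Sp_mono _ (prl_mem _ _)
        rintro l ⟨h1, _⟩ y hy
        have h3 := h1 hy
        rw [List.mem_append, List.mem_map] at h3
        rcases h3 with h | ⟨y', h, rfl⟩
        · exact Or.inr (Or.inl (hxy y h))
        · refine Or.inr (Or.inr ⟨x⁻¹ * y', hxy y' h, y'⁻¹ * F' (F y'), hE₀' y', ?_⟩)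
          simp only [Function.comp_apply]
          group
    · intro l
      refine (abs_le_nm _ l).trans ?_
      show nm (pf F' (k (pf F (single (x :: t) 1))) - pr (F' ∘ F) (single (x :: t) 1)) ≤ _
      refine (nm_sub _ _).trans ?_
      have h1 : nm (pf F' (k (pf F (single (x :: t) 1)))) ≤ M₁ := by
        refine (nm_pf _ _).trans ?_
        rw [hkk]
        exact (nm_pf _ _).trans (hM₁ _ hnorm)
      have h2 : nm (pr (F' ∘ F) (single (x :: t) 1)) ≤ (n + 1 : ℕ) := by
        rw [pr_single, one_smul]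
        refine (nm_prl _ _).trans ?_
        rw [mem_Gr] at hl'
        rw [hl']
      linarith

theorem exists_integral_contraction {H : Type u} {Z : Type v} [Group H] [Group Z] {n : ℕ}
    (hc : CoarseEquiv H Z) (hZ : PolyZ n Z) (A : Set H) (hA : A.Finite) :
    ∃ m : ℤ, 0 < m ∧ ∃ k : Ch H →ₗ[ℤ] Ch H,
      (∀ (g : H) (u : Ch H), k (act g u) = act g (k u)) ∧
      (∀ u ∈ Sp (Gr (n + 1) : Set (List H)), k u ∈ Sp (Gr (n + 2))) ∧
      (∀ u ∈ Sp (Ctl A ∩ Gr (n + 2) : Set (List H)), bd (k (bd u)) = m • bd u) := by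
  classical
  obtain ⟨K, hK_mem, hK_bd, hK_loc⟩ := exists_local_contraction hc hZ
  obtain ⟨J, hJ_sum, hJ_const, hJ_inv⟩ :=
    exists_functional (hasMean_of_coarseEquiv hc (hasMean_of_PolyZ n Z hZ))
  obtain ⟨E, hE, M, hEM⟩ := hK_loc A hA
  let φ : List H → List H → H → ℤ := fun σ τ g =>
    K (act g (single σ 1)) (τ.map (fun y => g • y))
  let κ : List H → List H → ℚ := fun σ τ => J (φ σ τ)
  -- controlled lists stay controlled
  have hctl : ∀ (g : H) (σ : List H), σ ∈ (Ctl A ∩ Gr (n + 1) : Set (List H)) →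
      σ.map (fun y => g • y) ∈ (Ctl A ∩ Gr (n + 1) : Set (List H)) := by
    rintro g σ ⟨h1, h2⟩
    exact ⟨Ctl_map_mul g h1, by simpa [Gr] using h2⟩
  have hφ_bdd : ∀ σ ∈ (Ctl A ∩ Gr (n + 1) : Set (List H)), ∀ τ, BddZ (φ σ τ) := by
    intro σ hσ τ
    refine ⟨M, fun g => ?_⟩
    rcases σ with _ | ⟨x, t⟩
    · exact absurd hσ.2 (by simp [Gr])
    · simp only [φ]
      rw [act_single]
      exact (hEM (g • x) (t.map (fun y => g • y)) (hctl g _ hσ)).2 _
  have hφ_supp : ∀ (x : H) (t : List H), (x :: t) ∈ (Ctl A ∩ Gr (n + 1) : Set (List H)) →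
      ∀ (τ : List H) (g : H), φ (x :: t) τ g ≠ 0 → τ ∈ (Nr x E ∩ Gr (n + 2) : Set (List H)) := by
    intro x t hσ τ g hne
    simp only [φ] at hne
    rw [act_single] at hne
    have h1 := (hEM (g • x) (t.map (fun y => g • y)) (hctl g _ hσ)).1
    have h2 : K (single ((x :: t).map (fun y => g • y)) 1) ∈ Sp (Gr (n + 2)) :=
      hK_mem _ (single_mem_Sp (hctl g _ hσ).2 1)
    rw [mem_Sp] at h1 h2
    refine ⟨?_, by simpa [Gr] using h2 _ hne⟩
    intro y hy
    have := h1 _ hne (g • y) (List.mem_map.mpr ⟨y, hy, rfl⟩)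
    have h3 : (g • x)⁻¹ * (g • y) ∈ E := this
    rw [smul_eq_mul, smul_eq_mul, mul_inv_rev, mul_assoc, inv_mul_cancel_left] at h3
    exact h3
  have hκ_zero : ∀ (x : H) (t : List H), (x :: t) ∈ (Ctl A ∩ Gr (n + 1) : Set (List H)) →
      ∀ τ : List H, τ ∉ (Nr x E ∩ Gr (n + 2) : Set (List H)) → κ (x :: t) τ = 0 := by
    intro x t hσ τ hτ
    have : φ (x :: t) τ = fun _ => 0 := by
      funext g
      by_contra hne
      exact hτ (hφ_supp x t hσ τ g hne)
    simp only [κ]
    rw [this, hJ_const]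
    simp
  have hκ_inv : ∀ (g : H), ∀ σ ∈ (Ctl A ∩ Gr (n + 1) : Set (List H)), ∀ τ : List H,
      κ (σ.map (fun y => g • y)) (τ.map (fun y => g • y)) = κ σ τ := by
    intro g σ hσ τ
    simp only [κ]
    rw [← hJ_inv g (φ σ τ) (hφ_bdd σ hσ τ)]
    congr 1
    funext x
    simp only [φ]
    rw [← act_single, ← act_mul, List.map_map]
    congr 2
    funext y
    simp only [Function.comp_apply]
    rw [mul_smul]
  -- common denominators
  have hSig := finite_lists hA (n + 1)
  have hT := finite_lists hE (n + 2)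
  obtain ⟨m, hm, hm'⟩ := exists_denominator (hSig.prod hT) (fun p => κ p.1 p.2)
  have hint : ∀ σ ∈ (Ctl A ∩ Gr (n + 1) : Set (List H)), ∀ τ : List H,
      ∃ z : ℤ, (m : ℚ) * κ σ τ = z := by
    intro σ hσ τ
    rcases σ with _ | ⟨x, t⟩
    · exact absurd hσ.2 (by simp [Gr])
    by_cases hτ : τ ∈ (Nr x E ∩ Gr (n + 2) : Set (List H))
    · rw [← hκ_inv x⁻¹ _ hσ τ]
      apply hm' (_, _)
      refine ⟨⟨?_, by simpa [Gr] using hσ.2⟩, ⟨?_, by simpa [Gr] using hτ.2⟩⟩
      · intro y hy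
        change y ∈ (x :: t).map (fun y => x⁻¹ • y) at hy
        rw [List.mem_map] at hy
        obtain ⟨y', hy', rfl⟩ := hy
        exact hσ.1 x (by simp) y' hy'
      · intro y hy
        change y ∈ τ.map (fun y => x⁻¹ • y) at hy
        rw [List.mem_map] at hy
        obtain ⟨y', hy', rfl⟩ := hy
        exact hτ.1 y' hy'
    · exact ⟨0, by rw [hκ_zero x t hσ τ hτ]; simp⟩
  let cf : List H → List H → ℤ := fun σ τ => ((m : ℚ) * κ σ τ).num
  have hcf : ∀ σ ∈ (Ctl A ∩ Gr (n + 1) : Set (List H)), ∀ τ : List H,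
      (cf σ τ : ℚ) = (m : ℚ) * κ σ τ := by
    intro σ hσ τ
    obtain ⟨z, hz⟩ := hint σ hσ τ
    simp only [cf]
    rw [hz]
    simp
  have hcf_supp : ∀ (x : H) (t : List H), (x :: t) ∈ (Ctl A ∩ Gr (n + 1) : Set (List H)) →
      ∀ τ, cf (x :: t) τ ≠ 0 → τ ∈ (Nr x E ∩ Gr (n + 2) : Set (List H)) := by
    intro x t hσ τ hne
    by_contra hτ
    apply hne
    simp only [cf]
    rw [hκ_zero x t hσ τ hτ]
    simp
  have hNfin : ∀ x : H, (Nr x E ∩ Gr (n + 2) : Set (List H)).Finite := by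
    intro x
    apply finite_lists
    have : {y : H | x⁻¹ * y ∈ E} = (fun y => x⁻¹ * y) ⁻¹' E := rfl
    rw [this]
    exact hE.preimage (mul_right_injective x⁻¹).injOn
  have hcf_fin : ∀ σ ∈ (Ctl A ∩ Gr (n + 1) : Set (List H)), {τ | cf σ τ ≠ 0}.Finite := by
    intro σ hσ
    rcases σ with _ | ⟨x, t⟩
    · exact absurd hσ.2 (by simp [Gr])
    exact (hNfin x).subset (fun τ hτ => hcf_supp x t hσ τ hτ)
  let kl : List H → Ch H := fun σ =>
    if h : σ ∈ (Ctl A ∩ Gr (n + 1) : Set (List H)) then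
      Finsupp.ofSupportFinite (cf σ) (hcf_fin σ h) else 0
  have hkl : ∀ σ ∈ (Ctl A ∩ Gr (n + 1) : Set (List H)), ∀ τ, kl σ τ = cf σ τ := by
    intro σ hσ τ
    simp only [kl]
    rw [dif_pos hσ]
    rfl
  have hkl0 : ∀ σ, σ ∉ (Ctl A ∩ Gr (n + 1) : Set (List H)) → kl σ = 0 := by
    intro σ hσ
    simp only [kl]
    rw [dif_neg hσ]
  let k : Ch H →ₗ[ℤ] Ch H := Finsupp.linearCombination ℤ kl
  have hk : ∀ l, k (single l 1) = kl l := by
    intro l; simp [k, Finsupp.linearCombination_single]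
  have hcf_inv : ∀ (g : H), ∀ σ ∈ (Ctl A ∩ Gr (n + 1) : Set (List H)), ∀ τ : List H,
      cf (σ.map (fun y => g • y)) (τ.map (fun y => g • y)) = cf σ τ := by
    intro g σ hσ τ
    simp only [cf]
    rw [hκ_inv g σ hσ τ]
  have hmapinj : ∀ g : H, Function.Injective (List.map (fun y : H => g • y)) :=
    fun g => List.map_injective_iff.mpr (MulAction.injective g)
  have hctl' : ∀ (g : H) (σ : List H), σ.map (fun y => g • y) ∈
      (Ctl A ∩ Gr (n + 1) : Set (List H)) → σ ∈ (Ctl A ∩ Gr (n + 1) : Set (List H)) := by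
    intro g σ h
    have := hctl g⁻¹ _ h
    rw [List.map_map] at this
    have e : ((fun y => g⁻¹ • y) ∘ fun y => g • y) = (id : H → H) := by
      funext y; exact inv_smul_smul _ _
    rwa [e, List.map_id] at this
  refine ⟨m, hm, k, ?_, ?_, ?_⟩
  · intro g u
    have : (k ∘ₗ act g : Ch H →ₗ[ℤ] Ch H) = act g ∘ₗ k := by
      apply lin_ext
      intro σ
      rw [LinearMap.comp_apply, LinearMap.comp_apply, act_single, hk, hk]
      by_cases hσ : σ ∈ (Ctl A ∩ Gr (n + 1) : Set (List H))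
      · ext τ
        obtain ⟨τ', rfl⟩ : ∃ τ' : List H, τ'.map (fun y => g • y) = τ := by
          refine ⟨τ.map (fun y => g⁻¹ • y), ?_⟩
          rw [List.map_map]
          have e : ((fun y => g • y) ∘ fun y => g⁻¹ • y) = (id : H → H) := by
            funext y; exact smul_inv_smul _ _
          rw [e, List.map_id]
        rw [hkl _ (hctl g σ hσ), hcf_inv g σ hσ]
        have : (act g (kl σ)) (τ'.map (fun y => g • y)) = kl σ τ' :=
          Finsupp.mapDomain_apply (hmapinj g) (kl σ) τ'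
        rw [this, hkl σ hσ]
      · rw [hkl0 σ hσ, hkl0 _ (fun h => hσ (hctl' g σ h)), map_zero]
    exact LinearMap.congr_fun this u
  · intro u hu
    apply map_mem_of_Sp _ hu
    intro σ hσ
    rw [hk]
    by_cases hσ' : σ ∈ (Ctl A ∩ Gr (n + 1) : Set (List H))
    · rw [mem_Sp]
      intro τ hτ
      rw [hkl σ hσ'] at hτ
      rcases σ with _ | ⟨x, t⟩
      · exact absurd hσ'.2 (by simp [Gr])
      exact (hcf_supp x t hσ' τ hτ).2
    · rw [hkl0 σ hσ']
      exact Submodule.zero_mem _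
  · intro u hu
    have := eq_of_Sp (L := bd ∘ₗ k ∘ₗ bd) (L' := m • bd) (p := Ctl A ∩ Gr (n + 2)) (u := u) (by
      rintro τ₀ ⟨hτ₀, hτ₀'⟩
      show bd (k (bd (single τ₀ 1))) = m • bd (single τ₀ 1)
      rw [bd_single, one_smul]
      have hdl : dl τ₀ ∈ Sp (Ctl A ∩ Gr (n + 1)) := by
        apply Sp_mono _ (dl_mem τ₀)
        rintro l' ⟨h1, h2⟩
        refine ⟨SubC_Ctl A τ₀ hτ₀ l' h1, ?_⟩
        rw [mem_Gr] at *
        omega
      set S : Finset (List H) := (dl τ₀).support with hS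
      have hSmem : ∀ σ ∈ S, σ ∈ (Ctl A ∩ Gr (n + 1) : Set (List H)) := by
        intro σ hσ
        exact (mem_Sp.mp hdl) σ (by simpa [hS] using hσ)
      let hd : List H → H := fun l => match l with
        | [] => 1
        | x :: _ => x
      let T : Finset (List H) := S.biUnion (fun σ => (hNfin (hd σ)).toFinset)
      have hTmem : ∀ σ ∈ S, ∀ τ ∈ (Nr (hd σ) E ∩ Gr (n + 2) : Set (List H)), τ ∈ T := by
        intro σ hσ τ hτ
        exact Finset.mem_biUnion.mpr ⟨σ, hσ, (hNfin (hd σ)).mem_toFinset.mpr hτ⟩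
      have hSne : ∀ l, dl τ₀ l ≠ 0 → l ∈ S := by
        intro l hl
        simpa [hS] using hl
      -- the value of `k (dl τ₀)`
      have hkT : ∀ τ, k (dl τ₀) τ = ∑ σ ∈ S, dl τ₀ σ * cf σ τ := by
        intro τ
        rw [lin_apply_eq (dl τ₀) S hSne]
        apply Finset.sum_congr rfl
        intro σ hσ
        rw [hk, hkl σ (hSmem σ hσ)]
      have hkTsupp : ∀ τ, k (dl τ₀) τ ≠ 0 → τ ∈ T := by
        intro τ hτ
        rw [hkT] at hτ
        obtain ⟨σ, hσ, hne⟩ := Finset.exists_ne_zero_of_sum_ne_zero hτ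
        have hσ' := hSmem σ hσ
        apply hTmem σ hσ
        rcases σ with _ | ⟨x, t⟩
        · exact absurd hσ'.2 (by simp [Gr])
        exact hcf_supp x t hσ' τ (right_ne_zero_of_mul hne)
      -- the translated identity
      have hg : ∀ (g : H) (ξ : List H), ∑ p ∈ S ×ˢ T, (dl τ₀ p.1 * dl p.2 ξ) * φ p.1 p.2 g =
          dl τ₀ ξ := by
        intro g ξ
        have hU : ∀ τ, (act g⁻¹ (K (act g (dl τ₀)))) τ = ∑ σ ∈ S, dl τ₀ σ * φ σ τ g := by
          intro τ
          have e1 : (act g⁻¹ (K (act g (dl τ₀)))) τ = (K (act g (dl τ₀)))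
              (τ.map (fun y => g • y)) := by
            have := Finsupp.mapDomain_apply (hmapinj g⁻¹) (K (act g (dl τ₀)))
              (τ.map (fun y => g • y))
            rw [List.map_map] at this
            have e : ((fun y => g⁻¹ • y) ∘ fun y => g • y) = (id : H → H) := by
              funext y; exact inv_smul_smul _ _
            rw [e, List.map_id] at this
            exact this
          rw [e1]
          exact lin_apply_eq (K := K ∘ₗ act g) (dl τ₀) S hSne _
        have hUsupp : ∀ τ, (act g⁻¹ (K (act g (dl τ₀)))) τ ≠ 0 → τ ∈ T := by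
          intro τ hτ
          rw [hU] at hτ
          obtain ⟨σ, hσ, hne⟩ := Finset.exists_ne_zero_of_sum_ne_zero hτ
          have hσ' := hSmem σ hσ
          apply hTmem σ hσ
          rcases σ with _ | ⟨x, t⟩
          · exact absurd hσ'.2 (by simp [Gr])
          exact hφ_supp x t hσ' τ g (right_ne_zero_of_mul hne)
        have hbdU : bd (act g⁻¹ (K (act g (dl τ₀)))) = dl τ₀ := by
          have h1 : act g (dl τ₀) = bd (act g (single τ₀ (1 : ℤ))) := by
            rw [bd_act, bd_single, one_smul]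
          rw [bd_act, h1, hK_bd _ (act_mem_Gr g (single_mem_Sp hτ₀' 1)), ← h1, ← act_mul,
            inv_mul_cancel, act_one]
        have h2 := bd_apply_eq (act g⁻¹ (K (act g (dl τ₀)))) T hUsupp ξ
        rw [hbdU] at h2
        rw [h2, Finset.sum_product_right]
        apply Finset.sum_congr rfl
        intro τ _
        rw [hU, Finset.sum_mul]
        apply Finset.sum_congr rfl
        intro σ _
        ring
      ext ξ
      rw [bd_apply_eq _ T hkTsupp ξ]
      have hQ : ((∑ τ ∈ T, k (dl τ₀) τ * dl τ ξ : ℤ) : ℚ) = ((m * dl τ₀ ξ : ℤ) : ℚ) := by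
        have h1 := hJ_sum (S ×ˢ T) (fun p => dl τ₀ p.1 * dl p.2 ξ) (fun p => φ p.1 p.2)
          (fun p hp => hφ_bdd _ (hSmem _ (Finset.mem_product.mp hp).1) _)
        have h2 : (fun x => ∑ p ∈ S ×ˢ T, (dl τ₀ p.1 * dl p.2 ξ) * φ p.1 p.2 x) =
            fun _ => dl τ₀ ξ := funext (fun g => hg g ξ)
        rw [h2, hJ_const] at h1
        push_cast
        rw [h1, Finset.sum_product_right, Finset.mul_sum]
        apply Finset.sum_congr rfl
        intro τ _
        rw [hkT]
        push_cast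
        rw [Finset.sum_mul, Finset.mul_sum]
        apply Finset.sum_congr rfl
        intro σ hσ
        rw [hcf σ (hSmem σ hσ) τ]
        ring
      have hZ' : (∑ τ ∈ T, k (dl τ₀) τ * dl τ ξ : ℤ) = m * dl τ₀ ξ := by exact_mod_cast hQ
      rw [hZ']
      rfl) hu
    exact this

end Vale.Agent.P188
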