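import Vale.Agent.P188.MathlibUsed

/-!
Definitions used in the statements for P188: word metrics, quasi-isometries,
polycyclic and virtually polycyclic groups.
-/

namespace Vale.Agent.P188

/-- The word metric of a generating set `S`: the least length of a word in the elements
of `S` and their inverses which spells `x⁻¹ * y`. -/
noncomputable def wordDist {G : Type*} [Group G] (S : Set G) (x y : G) : ℕ :=
  sInf {n : ℕ | ∃ l : List G, l.length = n ∧ (∀ a ∈ l, a ∈ S ∨ a⁻¹ ∈ S) ∧ l.prod = x⁻¹ * y}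

/-- `F` is a `(K, C)`-quasi-isometry for the distances `dX` and `dY`. -/
def IsQuasiIsometry {X Y : Type*} (dX : X → X → ℕ) (dY : Y → Y → ℕ) (K C : ℝ) (F : X → Y) :
    Prop :=
  (∀ x x' : X, K⁻¹ * (dX x x' : ℝ) - C ≤ (dY (F x) (F x') : ℝ) ∧
    (dY (F x) (F x') : ℝ) ≤ K * (dX x x' : ℝ) + C) ∧
  ∀ y : Y, ∃ x : X, (dY y (F x) : ℝ) ≤ C

/-- Two groups are finitely generated and quasi-isometric for the word metrics of
finite generating sets. -/
def QuasiIsometric (H G : Type*) [Group H] [Group G] : Prop :=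
  ∃ (S : Finset H) (T : Finset G),
    Subgroup.closure (S : Set H) = ⊤ ∧ Subgroup.closure (T : Set G) = ⊤ ∧
    ∃ K C : ℝ, 1 ≤ K ∧ 0 ≤ C ∧ ∃ F : H → G,
      IsQuasiIsometry (wordDist (S : Set H)) (wordDist (T : Set G)) K C F

/-- A group is polycyclic if it has a finite subnormal series with cyclic quotients. -/
def IsPolycyclic (G : Type*) [Group G] : Prop :=
  ∃ (m : ℕ) (s : ℕ → Subgroup G), s 0 = ⊥ ∧ s m = ⊤ ∧
    ∀ i < m, s i ≤ s (i + 1) ∧ ∃ _ : ((s i).subgroupOf (s (i + 1))).Normal,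
      IsCyclic (s (i + 1) ⧸ (s i).subgroupOf (s (i + 1)))

/-- A group is virtually polycyclic if it has a polycyclic subgroup of finite index. -/
def IsVirtuallyPolycyclic (G : Type*) [Group G] : Prop :=
  ∃ P : Subgroup G, P.FiniteIndex ∧ IsPolycyclic P

end Vale.Agent.P188
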