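import Vale.Agent.P188.Coarse

/-!
Chains on lists: the augmented all tuples complex of a set, as finitely supported
functions on lists, with boundary, cone, push-forward and prism operators.
-/

universe u v w

namespace Vale.Agent.P188

open Finsupp

variable {X : Type u} {Y : Type v} {Z : Type w}

/-- Chains: integer combinations of lists. -/
abbrev Ch (X : Type u) := List X →₀ ℤ

/-- Prepend a vertex. -/
noncomputable def cns (x : X) : Ch X →ₗ[ℤ] Ch X := Finsupp.lmapDomain ℤ ℤ (List.cons x)

@[simp] lemma cns_single (x : X) (l : List X) (a : ℤ) :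
    cns x (single l a) = single (x :: l) a := by
  simp [cns, Finsupp.lmapDomain_apply, Finsupp.mapDomain_single]

/-- The boundary of a list. -/
noncomputable def dl : List X → Ch X
  | [] => 0
  | x :: t => single t 1 - cns x (dl t)

/-- The boundary operator. -/
noncomputable def bd : Ch X →ₗ[ℤ] Ch X := Finsupp.linearCombination ℤ dl

@[simp] lemma bd_single (l : List X) (a : ℤ) : bd (single l a) = a • dl l := by
  simp [bd, Finsupp.linearCombination_single]

@[simp] lemma dl_nil : dl ([] : List X) = 0 := rfl

lemma dl_cons (x : X) (t : List X) : dl (x :: t) = single t 1 - cns x (dl t) := rfl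

/-- Two linear maps on chains agree if they agree on lists. -/
lemma lin_ext {M : Type*} [AddCommGroup M] {f g : Ch X →ₗ[ℤ] M}
    (h : ∀ l, f (single l 1) = g (single l 1)) : f = g := by
  apply Finsupp.lhom_ext'
  intro l
  apply LinearMap.ext_ring
  simpa using h l

lemma bd_cns (x : X) (u : Ch X) : bd (cns x u) = u - cns x (bd u) := by
  have : (bd ∘ₗ cns x : Ch X →ₗ[ℤ] Ch X) = LinearMap.id - cns x ∘ₗ bd := by
    apply lin_ext
    intro l
    simp [dl_cons]
  have := LinearMap.congr_fun this u
  simpa using this

lemma bd_dl (l : List X) : bd (dl l) = 0 := by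
  induction l with
  | nil => simp
  | cons x t ih => rw [dl_cons, map_sub, bd_cns, ih]; simp

@[simp] lemma bd_bd (u : Ch X) : bd (bd u) = 0 := by
  have : (bd ∘ₗ bd : Ch X →ₗ[ℤ] Ch X) = 0 := by
    apply lin_ext
    intro l
    simp [bd_dl]
  exact LinearMap.congr_fun this u

/-- Push-forward of chains. -/
noncomputable def pf (f : X → Y) : Ch X →ₗ[ℤ] Ch Y := Finsupp.lmapDomain ℤ ℤ (List.map f)

@[simp] lemma pf_single (f : X → Y) (l : List X) (a : ℤ) :
    pf f (single l a) = single (l.map f) a := by
  simp [pf, Finsupp.lmapDomain_apply, Finsupp.mapDomain_single]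

lemma pf_cns (f : X → Y) (x : X) (u : Ch X) : pf f (cns x u) = cns (f x) (pf f u) := by
  have : (pf f ∘ₗ cns x : Ch X →ₗ[ℤ] Ch Y) = cns (f x) ∘ₗ pf f := by
    apply lin_ext
    intro l
    simp
  exact LinearMap.congr_fun this u

lemma pf_dl (f : X → Y) (l : List X) : pf f (dl l) = dl (l.map f) := by
  induction l with
  | nil => simp
  | cons x t ih => rw [dl_cons, map_sub, pf_cns, ih]; simp [dl_cons]

lemma bd_pf (f : X → Y) (u : Ch X) : bd (pf f u) = pf f (bd u) := by
  have : (bd ∘ₗ pf f : Ch X →ₗ[ℤ] Ch Y) = pf f ∘ₗ bd := by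
    apply lin_ext
    intro l
    simp [pf_dl]
  exact LinearMap.congr_fun this u

lemma pf_comp (f : X → Y) (g : Y → Z) (u : Ch X) : pf g (pf f u) = pf (g ∘ f) u := by
  have : (pf g ∘ₗ pf f : Ch X →ₗ[ℤ] Ch Z) = pf (g ∘ f) := by
    apply lin_ext
    intro l
    simp
  exact LinearMap.congr_fun this u

lemma pf_id (u : Ch X) : pf (fun x => x) u = u := by
  have : (pf (fun x => x) : Ch X →ₗ[ℤ] Ch X) = LinearMap.id := by
    apply lin_ext
    intro l
    simp
  exact LinearMap.congr_fun this u

/-- The prism of a list with respect to a self-map. -/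
noncomputable def prl (f : X → X) : List X → Ch X
  | [] => 0
  | x :: t => single (x :: f x :: t.map f) 1 - cns x (prl f t)

/-- The prism operator. -/
noncomputable def pr (f : X → X) : Ch X →ₗ[ℤ] Ch X := Finsupp.linearCombination ℤ (prl f)

@[simp] lemma pr_single (f : X → X) (l : List X) (a : ℤ) : pr f (single l a) = a • prl f l := by
  simp [pr, Finsupp.linearCombination_single]

lemma prl_cons (f : X → X) (x : X) (t : List X) :
    prl f (x :: t) = single (x :: f x :: t.map f) 1 - cns x (prl f t) := rfl

lemma pr_cns (f : X → X) (x : X) (u : Ch X) :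
    pr f (cns x u) = cns x (cns (f x) (pf f u)) - cns x (pr f u) := by
  have : (pr f ∘ₗ cns x : Ch X →ₗ[ℤ] Ch X) =
      cns x ∘ₗ cns (f x) ∘ₗ pf f - cns x ∘ₗ pr f := by
    apply lin_ext
    intro l
    simp [prl_cons]
  have := LinearMap.congr_fun this u
  simpa using this

lemma bd_prl (f : X → X) (l : List X) :
    bd (prl f l) + pr f (dl l) = single (l.map f) 1 - single l 1 := by
  induction l with
  | nil => simp [prl]
  | cons x t ih =>
    have h1 : bd (prl f (x :: t)) = single (f x :: t.map f) 1 - cns x (single (t.map f) 1)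
        + cns x (cns (f x) (dl (t.map f))) - prl f t + cns x (bd (prl f t)) := by
      rw [prl_cons, map_sub, bd_cns]
      simp only [bd_single, one_smul, dl_cons, map_sub]
      simp only [cns_single]
      abel
    have h2 : pr f (dl (x :: t)) = prl f t - cns x (cns (f x) (dl (t.map f)))
        + cns x (pr f (dl t)) := by
      rw [dl_cons, map_sub, pr_cns, pf_dl]
      simp only [pr_single, one_smul]
      abel
    have h3 : cns x (bd (prl f t)) + cns x (pr f (dl t)) =
        cns x (single (t.map f) 1) - single (x :: t) 1 := by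
      rw [← map_add, ih, map_sub]; simp
    rw [h1, h2]
    have : single (f x :: List.map f t) (1:ℤ) = single (List.map f (x :: t)) 1 := by simp
    rw [this]
    rw [← sub_eq_zero] at h3 ⊢
    rw [← h3]
    abel

lemma bd_pr (f : X → X) (u : Ch X) : bd (pr f u) + pr f (bd u) = pf f u - u := by
  have : (bd ∘ₗ pr f + pr f ∘ₗ bd : Ch X →ₗ[ℤ] Ch X) = pf f - LinearMap.id := by
    apply lin_ext
    intro l
    simpa using bd_prl f l
  exact LinearMap.congr_fun this u

end Vale.Agent.P188
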