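import Mathlib
import Vale.Agent.P188.Defs

/-!
Coarse maps between groups, in terms of finite sets, and poly-`ℤ` groups (auxiliary notions).
-/

universe u v w

namespace Vale.Agent.P188

/-- `F` is bornologous: it maps pairs at bounded distance to pairs at bounded distance. -/
def Coarse {H : Type u} {G : Type v} [Group H] [Group G] (F : H → G) : Prop :=
  ∀ A : Set H, A.Finite → ∃ B : Set G, B.Finite ∧ ∀ x y : H, x⁻¹ * y ∈ A → (F x)⁻¹ * F y ∈ B

/-- `f` is at bounded distance from the identity. -/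
def CloseId {H : Type u} [Group H] (f : H → H) : Prop :=
  ∃ E : Set H, E.Finite ∧ ∀ x : H, x⁻¹ * f x ∈ E

/-- Coarse equivalence of groups. -/
def CoarseEquiv (H : Type u) (G : Type v) [Group H] [Group G] : Prop :=
  ∃ (F : H → G) (F' : G → H), Coarse F ∧ Coarse F' ∧ CloseId (F' ∘ F) ∧ CloseId (F ∘ F')

/-- Poly-`ℤ` groups of length `n`. -/
def PolyZ : ℕ → ∀ (G : Type u) [Group G], Prop
  | 0, G, _ => Subsingleton G
  | n + 1, G, _ => ∃ φ : G →* Multiplicative ℤ, Function.Surjective φ ∧ PolyZ n φ.ker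

end Vale.Agent.P188
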