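import Vale.Agent.P188.Contract

/-!
Equivariant chain maps into controlled chains.
-/

universe u v w

namespace Vale.Agent.P188

open Finsupp

variable {H : Type u} [Group H]

lemma act_ctl {A : Set H} {q : ℕ} (g : H) {u : Ch H} (hu : u ∈ Sp (Ctl A ∩ Gr q)) :
    act g u ∈ Sp (Ctl A ∩ Gr q) := by
  apply pf_mem _ hu
  rintro l ⟨hl, hl'⟩
  exact ⟨Ctl_map_mul g hl, by simpa [Gr] using hl'⟩

theorem exists_compress (hUA : UA H) (Q : ℕ) : ∃ A : Set H, A.Finite ∧
    ∃ s : Ch H →ₗ[ℤ] Ch H, (∀ (g : H) (u : Ch H), s (act g u) = act g (s u)) ∧
      s (single [] 1) = single [] 1 ∧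
      (∀ q ≤ Q, ∀ u ∈ Sp (Gr q : Set (List H)), s u ∈ Sp (Ctl A ∩ Gr q)) ∧
      (∀ q ≤ Q, ∀ u ∈ Sp (Gr q : Set (List H)), bd (s u) = s (bd u)) := by
  classical
  induction Q with
  | zero =>
    refine ⟨∅, Set.finite_empty, flt 0, fun g u => flt_act 0 g u, ?_, ?_, ?_⟩
    · rw [flt_single]; simp
    · intro q hq u hu
      obtain rfl : q = 0 := by omega
      rw [flt_eq hu]
      apply Sp_mono _ hu
      intro l hl
      refine ⟨?_, hl⟩
      have : l = [] := List.length_eq_zero_iff.mp hl
      subst this
      intro x hx
      simp at hx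
    · intro q hq u hu
      obtain rfl : q = 0 := by omega
      rw [bd_of_Gr_zero hu, map_zero, flt_eq hu, bd_of_Gr_zero hu]
  | succ Q ih =>
    obtain ⟨A, hA, s, hs_eq, hs_nil, hs_mem, hs_bd⟩ := ih
    obtain ⟨B, hB, hfill⟩ := hUA Q A hA
    have hw : ∀ l : List H, ∃ w : Ch H, l.length = Q + 1 →
        w ∈ Sp (Ctl B ∩ Gr (Q + 1)) ∧ bd w = s (dl l) := by
      intro l
      by_cases hl : l.length = Q + 1
      · have hdl : dl l ∈ Sp (Gr Q : Set (List H)) := by
          apply Sp_mono _ (dl_mem l)
          rintro l' ⟨_, h2⟩
          rw [mem_Gr]; omega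
        obtain ⟨w, hw, hbw⟩ := hfill (s (dl l)) (hs_mem Q le_rfl _ hdl) (by
          rw [hs_bd Q le_rfl _ hdl, bd_dl, map_zero])
        exact ⟨w, fun _ => ⟨hw, hbw⟩⟩
      · exact ⟨0, fun h => absurd h hl⟩
    choose w hw using hw
    let sl : List H → Ch H := fun l => if l.length ≤ Q then s (single l 1) else
      if l.length = Q + 1 then
        match l with
        | [] => 0
        | x :: t => act x (w ((x :: t).map (fun y => x⁻¹ • y)))
      else 0
    let s' : Ch H →ₗ[ℤ] Ch H := Finsupp.linearCombination ℤ sl
    have hs' : ∀ l, s' (single l 1) = sl l := by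
      intro l; simp [s', Finsupp.linearCombination_single]
    have hlow : ∀ q ≤ Q, ∀ u ∈ Sp (Gr q : Set (List H)), s' u = s u := by
      intro q hq u hu
      apply eq_of_Sp (p := Gr q) _ hu
      intro l hl
      rw [hs']
      rw [mem_Gr] at hl
      simp only [sl]
      rw [if_pos (by omega)]
    have htop : ∀ (x : H) (t : List H), (x :: t).length = Q + 1 →
        s' (single (x :: t) 1) = act x (w ((x :: t).map (fun y => x⁻¹ • y))) := by
      intro x t h
      rw [hs']
      simp only [sl]
      rw [if_neg (by omega), if_pos h]
    refine ⟨A ∪ B, hA.union hB, s', ?_, ?_, ?_, ?_⟩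
    · intro g u
      have : (s' ∘ₗ act g : Ch H →ₗ[ℤ] Ch H) = act g ∘ₗ s' := by
        apply lin_ext
        intro l
        rw [LinearMap.comp_apply, LinearMap.comp_apply, act_single]
        rcases lt_trichotomy l.length (Q + 1) with h | h | h
        · rw [hlow l.length (by omega) _ (single_mem_Sp (p := Gr l.length) rfl 1),
            hlow l.length (by omega) _ (single_mem_Sp (p := Gr l.length) (by simp [Gr]) 1),
            ← hs_eq, act_single]
        · rcases l with _ | ⟨x, t⟩
          · simp at h
          · rw [htop x t h]
            rw [List.map_cons, htop _ _ (by simpa using h), ← act_mul]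
            congr 2
            rw [List.map_cons, List.map_cons, List.map_map]
            congr 1
            · simp
            · apply List.map_congr_left
              intro y _
              simp [mul_assoc]
        · rw [hs', hs']
          simp only [sl, List.length_map]
          rw [if_neg (by omega), if_neg (by omega), if_neg (by omega), if_neg (by omega),
            map_zero]
      exact LinearMap.congr_fun this u
    · rw [hlow 0 (by omega) _ (single_mem_Sp (p := Gr 0) rfl 1), hs_nil]
    · intro q hq u hu
      rcases Nat.lt_or_ge Q q with h | h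
      · obtain rfl : q = Q + 1 := by omega
        apply map_mem_of_Sp _ hu
        intro l hl
        rcases l with _ | ⟨x, t⟩
        · simp [Gr] at hl
        · rw [htop x t hl]
          apply Sp_mono _ (act_ctl x (hw _ (by simpa [Gr] using hl)).1)
          exact Set.inter_subset_inter_left _ (Ctl_mono Set.subset_union_right)
      · rw [hlow q h u hu]
        apply Sp_mono _ (hs_mem q h u hu)
        exact Set.inter_subset_inter_left _ (Ctl_mono Set.subset_union_left)
    · intro q hq u hu
      rcases Nat.lt_or_ge Q q with h | h
      · obtain rfl : q = Q + 1 := by omega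
        have := eq_of_Sp (L := bd ∘ₗ s') (L' := s' ∘ₗ bd) (p := Gr (Q + 1)) (u := u) (by
          intro l hl
          rcases l with _ | ⟨x, t⟩
          · simp [Gr] at hl
          · have hl' : ((x :: t).map (fun y => x⁻¹ • y)).length = Q + 1 := by
              simpa [Gr] using hl
            rw [LinearMap.comp_apply, LinearMap.comp_apply, htop x t hl, bd_act,
              (hw _ hl').2, ← hs_eq, bd_single, one_smul]
            have e1 : act x (dl ((x :: t).map (fun y => x⁻¹ • y))) = dl (x :: t) := by
              have := bd_act x (act x⁻¹ (single (x :: t) (1 : ℤ)))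
              rw [← act_mul, mul_inv_cancel, act_one, act_single, bd_single, bd_single,
                one_smul, one_smul] at this
              exact this.symm
            rw [e1]
            have hdl : dl (x :: t) ∈ Sp (Gr Q : Set (List H)) := by
              apply Sp_mono _ (dl_mem (x :: t))
              rintro l' ⟨_, h2⟩
              rw [mem_Gr] at *
              omega
            rw [hlow Q le_rfl _ hdl]) hu
        exact this
      · rw [hlow q h u hu, hs_bd q h u hu]
        rcases q with _ | q
        · rw [bd_of_Gr_zero hu, map_zero, map_zero]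
        · rw [hlow q (by omega) _ (bd_mem_Gr hu)]

end Vale.Agent.P188
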