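import Vale.Agent.P188.Top

/-!
The equivariant top contraction of a poly-`ℤ` group.
-/

universe u v w

namespace Vale.Agent.P188

open Finsupp

section Flt

variable {X : Type u}

/-- The projection onto chains on lists of length `q`. -/
noncomputable def flt (q : ℕ) : Ch X →ₗ[ℤ] Ch X :=
  Finsupp.linearCombination ℤ (fun l => if l.length = q then single l 1 else 0)

lemma flt_single (q : ℕ) (l : List X) :
    flt q (single l 1) = if l.length = q then single l 1 else 0 := by
  simp [flt, Finsupp.linearCombination_single]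

lemma flt_mem (q : ℕ) (u : Ch X) : flt q u ∈ Sp (Gr q) := by
  apply map_mem_of_Sp (p := Set.univ) _ (by rw [mem_Sp]; exact fun _ _ => trivial)
  intro l _
  rw [flt_single]
  split_ifs with h
  · exact single_mem_Sp h 1
  · exact Submodule.zero_mem _

lemma flt_eq {q : ℕ} {u : Ch X} (hu : u ∈ Sp (Gr q)) : flt q u = u := by
  have := eq_of_Sp (L := flt q) (L' := LinearMap.id) (p := Gr q) (u := u) (by
    intro l hl
    rw [flt_single, if_pos (mem_Gr.mp hl)]
    rfl) hu
  exact this

lemma flt_eq_zero {q q' : ℕ} (h : q' ≠ q) {u : Ch X} (hu : u ∈ Sp (Gr q')) : flt q u = 0 := by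
  have := eq_of_Sp (L := flt q) (L' := 0) (p := Gr q') (u := u) (by
    intro l hl
    rw [mem_Gr] at hl
    rw [flt_single, if_neg (by omega)]
    rfl) hu
  exact this

lemma bd_flt (q : ℕ) (u : Ch X) : bd (flt (q + 1) u) = flt q (bd u) := by
  have : (bd ∘ₗ flt (q + 1) : Ch X →ₗ[ℤ] Ch X) = flt q ∘ₗ bd := by
    apply lin_ext
    intro l
    rw [LinearMap.comp_apply, LinearMap.comp_apply, flt_single, bd_single, one_smul]
    split_ifs with h
    · rw [bd_single, one_smul, flt_eq]
      apply Sp_mono _ (dl_mem l)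
      rintro l' ⟨_, h2⟩
      rw [mem_Gr]; omega
    · rw [map_zero]
      rcases l with _ | ⟨x, t⟩
      · simp
      · rw [flt_eq_zero (q' := t.length)]
        · simp only [List.length_cons] at h; omega
        · apply Sp_mono _ (dl_mem (x :: t))
          rintro l' ⟨_, h2⟩
          rw [mem_Gr]; simpa using h2
  exact LinearMap.congr_fun this u

lemma flt_act {G : Type v} [Group G] [MulAction G X] (q : ℕ) (g : G) (u : Ch X) :
    flt q (act g u) = act g (flt q u) := by
  have : (flt q ∘ₗ act g : Ch X →ₗ[ℤ] Ch X) = act g ∘ₗ flt q := by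
    apply lin_ext
    intro l
    rw [LinearMap.comp_apply, LinearMap.comp_apply, act_single, flt_single, flt_single,
      List.length_map]
    split_ifs with h
    · rw [act_single]
    · rw [map_zero]
  exact LinearMap.congr_fun this u

end Flt

/-- Cycles. -/
noncomputable abbrev Cyc (G : Type u) := LinearMap.ker (bd : Ch G →ₗ[ℤ] Ch G)

noncomputable instance cycAct (G : Type u) [Group G] : DistribMulAction G (Cyc G) where
  smul g v := ⟨act g v.1, by rw [LinearMap.mem_ker, bd_act, LinearMap.mem_ker.mp v.2, map_zero]⟩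
  one_smul v := Subtype.ext (act_one v.1)
  mul_smul g h v := Subtype.ext (act_mul g h v.1)
  smul_zero g := Subtype.ext (map_zero (act g))
  smul_add g v w := Subtype.ext (map_add (act g) v.1 w.1)

theorem top_contraction (n : ℕ) (G : Type u) [Group G] (h : PolyZ n G) :
    ∃ k : Ch G →ₗ[ℤ] Ch G, (∀ (g : G) (u : Ch G), k (act g u) = act g (k u)) ∧
      (∀ u ∈ Sp (Gr (n + 1) : Set (List G)), k u ∈ Sp (Gr (n + 2))) ∧
      (∀ u ∈ Sp (Gr (n + 2) : Set (List G)), bd (k (bd u)) = bd u) := by
  have hfree : ∀ (g : G) (x : G), g • x = x → g = 1 := by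
    intro g x h
    exact mul_eq_right.mp h
  obtain ⟨b, hb, hb'⟩ := Van_of_PolyZ n G h (n + 2) le_rfl G hfree (Cyc G)
    (bd.codRestrict (LinearMap.ker bd) (fun u => bd_bd u))
    (fun g u => Subtype.ext (bd_act g u)) (fun u _ => Subtype.ext (bd_bd _))
  have hbc : ∀ u, bd (b u).1 = 0 := fun u => LinearMap.mem_ker.mp (b u).2
  let kl : List G → Ch G := fun l => match l with
    | [] => 0
    | x :: t => cns x (flt (n + 1) (b (single (x :: t) 1)).1)
  let k : Ch G →ₗ[ℤ] Ch G := Finsupp.linearCombination ℤ kl
  have hk : ∀ l, k (single l 1) = kl l := by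
    intro l; simp [k, Finsupp.linearCombination_single]
  refine ⟨k, ?_, ?_, ?_⟩
  · intro g u
    have : (k ∘ₗ act g : Ch G →ₗ[ℤ] Ch G) = act g ∘ₗ k := by
      apply lin_ext
      intro l
      rw [LinearMap.comp_apply, LinearMap.comp_apply, act_single, hk, hk]
      rcases l with _ | ⟨x, t⟩
      · simp [kl]
      · have h1 := hb g (single (x :: t) 1)
        rw [act_single] at h1
        simp only [kl, List.map_cons]
        rw [act_cns, ← flt_act]
        simp only [List.map_cons] at h1
        rw [h1]
        rfl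
    exact LinearMap.congr_fun this u
  · intro u hu
    apply map_mem_of_Sp _ hu
    intro l hl
    rw [hk]
    rcases l with _ | ⟨x, t⟩
    · exact Submodule.zero_mem _
    · apply cns_mem _ (flt_mem (n + 1) _)
      intro l hl
      rw [mem_Gr] at *
      simp [hl]
  · intro u hu
    have h1 : ∀ v ∈ Sp (Gr (n + 1) : Set (List G)), bd (k v) = flt (n + 1) (b v).1 := by
      intro v hv
      have := eq_of_Sp (L := bd ∘ₗ k)
        (L' := flt (n + 1) ∘ₗ (LinearMap.ker bd).subtype ∘ₗ b) (p := Gr (n + 1)) (u := v) (by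
        intro l hl
        rw [LinearMap.comp_apply, hk]
        rcases l with _ | ⟨x, t⟩
        · simp [Gr] at hl
        · show bd (cns x (flt (n + 1) (b (single (x :: t) 1)).1)) = _
          rw [bd_cns, bd_flt, hbc, map_zero, map_zero, sub_zero]
          rfl) hv
      exact this
    rw [h1 _ (bd_mem_Gr hu), hb' u hu]
    exact flt_eq (bd_mem_Gr hu)

end Vale.Agent.P188
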