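import Vale.Agent.P188.Compress

/-!
Descent: a top contraction up to the integer `m` forces the orders of finite subgroups
to divide `m`.
-/

universe u v w

namespace Vale.Agent.P188

open Finsupp

variable {H : Type u} [Group H]

/-- Projection onto chains whose first vertex lies in `D`. -/
noncomputable def dom (D : Set H) : Ch H →ₗ[ℤ] Ch H :=
  open Classical in
  Finsupp.linearCombination ℤ (fun l => match l with
    | [] => 0
    | x :: t => if x ∈ D then single (x :: t) 1 else 0)

omit [Group H] in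
lemma dom_cons (D : Set H) (x : H) (t : List H) [Decidable (x ∈ D)] :
    dom D (single (x :: t) 1) = if x ∈ D then single (x :: t) 1 else 0 := by
  simp only [dom, Finsupp.linearCombination_single, one_smul]
  congr

omit [Group H] in
lemma dom_mem (D : Set H) {q : ℕ} {u : Ch H} (hu : u ∈ Sp (Gr q)) : dom D u ∈ Sp (Gr q) := by
  classical
  apply map_mem_of_Sp _ hu
  intro l hl
  rcases l with _ | ⟨x, t⟩
  · simp [dom, Finsupp.linearCombination_single]
  · rw [dom_cons]
    split_ifs
    · exact single_mem_Sp hl 1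
    · exact Submodule.zero_mem _

/-- Translates of a fundamental domain decompose chains. -/
lemma sum_dom (F : Subgroup H) [Fintype F] (D : Set H)
    (hD : Subgroup.IsComplement (F : Set H) D) {q : ℕ} {u : Ch H}
    (hu : u ∈ Sp (Gr (q + 1))) :
    ∑ f : F, act (f : H) (dom D (act (f : H)⁻¹ u)) = u := by
  classical
  have := eq_of_Sp (L := ∑ f : F, act (f : H) ∘ₗ dom D ∘ₗ act (f : H)⁻¹)
    (L' := LinearMap.id) (p := Gr (q + 1)) (u := u) (by
    intro l hl
    rcases l with _ | ⟨x, t⟩
    · simp [Gr] at hl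
    obtain ⟨⟨⟨f₀, hf₀⟩, ⟨d₀, hd₀⟩⟩, hfd, huniq⟩ := hD.existsUnique x
    simp only at hfd
    rw [LinearMap.sum_apply, Finset.sum_eq_single (⟨f₀, hf₀⟩ : F)]
    · rw [LinearMap.comp_apply, LinearMap.comp_apply, act_single, List.map_cons, dom_cons,
        if_pos, act_single, List.map_cons, List.map_map]
      · have e1 : f₀ • f₀⁻¹ • x = x := smul_inv_smul _ _
        have e2 : ((fun y => f₀ • y) ∘ fun y => f₀⁻¹ • y) = (id : H → H) := by
          funext y; exact smul_inv_smul _ _
        simp only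
        rw [e1, e2, List.map_id]
        rfl
      · simp only
        rw [← hfd]
        simpa using hd₀
    · rintro ⟨f, hf⟩ _ hne
      rw [LinearMap.comp_apply, LinearMap.comp_apply, act_single, List.map_cons, dom_cons,
        if_neg, map_zero]
      intro hmem
      apply hne
      have := huniq (⟨f, hf⟩, ⟨f⁻¹ * x, hmem⟩) (by simp)
      exact congrArg Prod.fst this
    · intro h
      exact absurd (Finset.mem_univ _) h) hu
  rw [LinearMap.sum_apply] at this
  exact this

theorem descend (F : Subgroup H) [Finite F] (N : ℕ) (m : ℤ) (s : Ch H →ₗ[ℤ] Ch H)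
    (hs_eq : ∀ (g : H) (u : Ch H), s (act g u) = act g (s u))
    (hs_nil : s (single [] 1) = single [] 1)
    (hs_mem : ∀ q ≤ N, ∀ u ∈ Sp (Gr q : Set (List H)), s u ∈ Sp (Gr q))
    (hs_bd : ∀ q ≤ N, ∀ u ∈ Sp (Gr q : Set (List H)), bd (s u) = s (bd u))
    (Θ : Ch H →ₗ[ℤ] Ch H) (hΘ_eq : ∀ (g : H) (u : Ch H), Θ (act g u) = act g (Θ u))
    (hΘ_mem : ∀ u ∈ Sp (Gr N : Set (List H)), Θ u ∈ Sp (Gr (N + 1)))
    (hΘ : ∀ u ∈ Sp (Gr N : Set (List H)), bd u = 0 → bd (Θ u) = m • s u) :
    (Nat.card F : ℤ) ∣ m := by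
  classical
  have : Fintype F := Fintype.ofFinite F
  obtain ⟨D, hD, _⟩ := Subgroup.exists_isComplement_right F 1
  have main : ∀ j ≤ N, ∃ T : Ch H →ₗ[ℤ] Ch H,
      (∀ (g : F) (u : Ch H), T (act (g : H) u) = act (g : H) (T u)) ∧
      (∀ u ∈ Sp (Gr (N - j) : Set (List H)), T u ∈ Sp (Gr (N - j + 1))) ∧
      (∀ u ∈ Sp (Gr (N - j) : Set (List H)), bd u = 0 → bd (T u) = m • s u) := by
    intro j
    induction j with
    | zero => exact fun _ => ⟨Θ, fun g u => hΘ_eq g u, hΘ_mem, hΘ⟩
    | succ j ih =>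
      intro hj
      obtain ⟨T, hT_eq, hT_mem, hT⟩ := ih (by omega)
      obtain ⟨q, hq⟩ : ∃ q, N - (j + 1) = q := ⟨_, rfl⟩
      have hq' : N - j = q + 1 := by omega
      rw [hq]
      rw [hq'] at hT_mem hT
      let R : Ch H →ₗ[ℤ] Ch H := m • s - bd ∘ₗ T
      have hR : ∀ u, R u = m • s u - bd (T u) := fun u => rfl
      have hR_eq : ∀ (g : F) (u : Ch H), R (act (g : H) u) = act (g : H) (R u) := by
        intro g u
        rw [hR, hR, hs_eq, hT_eq, bd_act, map_sub, map_smul]
      have hR_mem : ∀ u ∈ Sp (Gr (q + 1) : Set (List H)), R u ∈ Sp (Gr (q + 1)) := by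
        intro u hu
        rw [hR]
        exact Submodule.sub_mem _ (Submodule.smul_mem _ _ (hs_mem _ (by omega) u hu))
          (bd_mem_Gr (hT_mem u hu))
      have hcns : ∀ u ∈ Sp (Gr q : Set (List H)), cns 1 u ∈ Sp (Gr (q + 1)) := by
        intro u hu
        exact cns_mem (fun l hl => by rw [mem_Gr] at *; simp [hl]) hu
      let T' : Ch H →ₗ[ℤ] Ch H := ∑ f : F, act (f : H) ∘ₗ dom D ∘ₗ R ∘ₗ cns 1 ∘ₗ bd ∘ₗ
        cns 1 ∘ₗ act (f : H)⁻¹
      have hT' : ∀ u, T' u = ∑ f : F, act (f : H) (dom D (R (cns 1 (bd (cns 1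
          (act (f : H)⁻¹ u)))))) := by
        intro u
        simp only [T', LinearMap.sum_apply, LinearMap.comp_apply]
      have hT'cyc : ∀ u ∈ Sp (Gr q : Set (List H)), bd u = 0 → T' u = R (cns 1 u) := by
        intro u hu hbu
        rw [hT', ← sum_dom F D hD (hR_mem _ (hcns u hu))]
        apply Finset.sum_congr rfl
        intro f _
        congr 2
        have h1 : bd (act (f : H)⁻¹ u) = 0 := by rw [bd_act, hbu, map_zero]
        rw [bd_cns, h1, map_zero, sub_zero]
        have hf : (f : H)⁻¹ = ((f⁻¹ : F) : H) := rfl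
        rw [hf, ← hR_eq, ← sub_eq_zero, ← map_sub, hR]
        have hz : cns 1 (act ((f⁻¹ : F) : H) u) - act ((f⁻¹ : F) : H) (cns 1 u) ∈
            Sp (Gr (q + 1) : Set (List H)) :=
          Submodule.sub_mem _ (hcns _ (act_mem_Gr _ hu)) (act_mem_Gr _ (hcns u hu))
        rw [hT _ hz, sub_self]
        rw [map_sub, bd_act, bd_cns, bd_cns, bd_act, hbu]
        simp
      refine ⟨T', ?_, ?_, ?_⟩
      · intro g u
        rw [hT', hT', map_sum]
        rw [← Equiv.sum_comp (Equiv.mulLeft g)]
        apply Finset.sum_congr rfl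
        intro f _
        have e : act ((g * f : F) : H)⁻¹ (act (g : H) u) = act (f : H)⁻¹ u := by
          rw [← act_mul]
          congr 2
          simp [mul_inv_rev]
        simp only [Equiv.coe_mulLeft]
        rw [e, Subgroup.coe_mul, act_mul]
      · intro u hu
        rw [hT']
        apply Submodule.sum_mem
        intro f _
        exact act_mem_Gr _ (dom_mem D (hR_mem _ (hcns _ (bd_mem_Gr (hcns _
          (act_mem_Gr _ hu))))))
      · intro u hu hbu
        rw [hT'cyc u hu hbu, hR, map_sub, bd_bd, sub_zero, map_smul,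
          hs_bd (q + 1) (by omega) _ (hcns u hu), bd_cns, hbu, map_zero, sub_zero]
  obtain ⟨T, hT_eq, hT_mem, hT⟩ := main N le_rfl
  rw [Nat.sub_self] at hT_mem hT
  have hnil : (single ([] : List H) (1 : ℤ)) ∈ Sp (Gr 0 : Set (List H)) :=
    single_mem_Sp (p := Gr 0) rfl 1
  have hv := hT_mem _ hnil
  have hbv := hT _ hnil (by simp)
  rw [hs_nil] at hbv
  set v := T (single [] 1) with hvdef
  have hinv : ∀ f : F, act (f : H)⁻¹ v = v := by
    intro f
    have := hT_eq f⁻¹ (single [] 1)
    rw [act_single] at this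
    simp only [List.map_nil] at this
    exact this.symm
  have hsum := sum_dom F D hD (q := 0) hv
  have hsum' : ∑ f : F, act (f : H) (dom D v) = v := by
    rw [← hsum]
    apply Finset.sum_congr rfl
    intro f _
    rw [hsum, hinv]
  have hnilact : ∀ (g : H) (w : Ch H), (act g w) [] = w [] := by
    intro g w
    have : (Finsupp.lapply ([] : List H) : Ch H →ₗ[ℤ] ℤ) ∘ₗ act g = Finsupp.lapply [] := by
      apply lin_ext
      intro l
      rw [LinearMap.comp_apply, act_single, Finsupp.lapply_apply, Finsupp.lapply_apply]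
      rcases l with _ | ⟨x, t⟩
      · simp
      · simp
    exact LinearMap.congr_fun this w
  have hfinal : (bd v) [] = (Nat.card F : ℤ) * (bd (dom D v)) [] := by
    conv_lhs => rw [← hsum']
    rw [map_sum, Finsupp.finsetSum_apply]
    simp only [bd_act, hnilact]
    rw [Finset.sum_const, Finset.card_univ, Nat.card_eq_fintype_card]
    simp
  rw [hbv] at hfinal
  refine ⟨(bd (dom D v)) [], ?_⟩
  rw [← hfinal]
  simp

end Vale.Agent.P188
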