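import Vale.Agent.P188.Supp

/-!
Uniform acyclicity passes from the kernel of a surjection onto `ℤ` to the group
(Mayer-Vietoris argument in slabs), hence holds for poly-`ℤ` groups.
-/

universe u v w

namespace Vale.Agent.P188

open Finsupp Pointwise

variable {G : Type u} [Group G] (φ : G →* Multiplicative ℤ)

/-- The height of an element. -/
def ht (x : G) : ℤ := Multiplicative.toAdd (φ x)

lemma ht_mul (x y : G) : ht φ (x * y) = ht φ x + ht φ y := by
  simp [ht]

lemma ht_inv (x : G) : ht φ x⁻¹ = - ht φ x := by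
  simp [ht]

lemma ht_one : ht φ 1 = 0 := by
  simp [ht]

lemma ht_zpow {t : G} (h : ht φ t = 1) (n : ℤ) : ht φ (t ^ n) = n := by
  have : ht φ t = Multiplicative.toAdd (φ t) := rfl
  rw [h] at this
  simp [ht, ← this]

lemma mem_ker_iff_ht (x : G) : x ∈ φ.ker ↔ ht φ x = 0 := by
  rw [MonoidHom.mem_ker, ht]
  constructor
  · intro h; simp [h]
  · intro h; exact Multiplicative.toAdd.injective (by simpa using h)

/-- Lists whose entries have height at distance at most `r` of `i`. -/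
def Ht (i r : ℤ) : Set (List G) := {l | ∀ x ∈ l, |ht φ x - i| ≤ r}

lemma SubC_Ht (i r : ℤ) : SubC (Ht φ i r) := fun _ hl _ hs x hx => hl x (hs hx)

lemma slab_UA_zero {t : G} (ht1 : ht φ t = 1) (hN : UA φ.ker) (q : ℕ) (A : Set G)
    (hA : A.Finite) (r : ℕ) : ∃ B : Set G, B.Finite ∧
      ∀ u ∈ Sp ((Ctl A ∩ Gr q) ∩ Ht φ 0 r), bd u = 0 →
        ∃ w ∈ Sp ((Ctl B ∩ Gr (q + 1)) ∩ Ht φ 0 r), bd w = u := by
  have hmem : ∀ x : G, x * t ^ (- ht φ x) ∈ φ.ker := by
    intro x
    rw [mem_ker_iff_ht, ht_mul, ht_zpow φ ht1]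
    ring
  let f : G → G := fun x => x * t ^ (- ht φ x)
  let fN : G → φ.ker := fun x => ⟨x * t ^ (- ht φ x), hmem x⟩
  let T : Set G := (fun a : ℤ => t ^ a) '' (Set.Icc (-(r : ℤ)) r)
  have hT : T.Finite := (Set.finite_Icc _ _).image _
  let A' : Set φ.ker := Subtype.val ⁻¹' (T * A * T)
  have hA' : A'.Finite :=
    Set.Finite.preimage (Subtype.val_injective.injOn) ((hT.mul hA).mul hT)
  obtain ⟨B', hB', h'⟩ := hN q A' hA'
  refine ⟨(Subtype.val '' B') ∪ prCtl A T, (hB'.image _).union (prCtl_finite hA hT), ?_⟩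
  intro u hu hbd
  obtain ⟨w, hw, hbw⟩ := h' (pf fN u) (by
    apply pf_mem _ hu
    rintro l ⟨⟨hl, hl'⟩, hl''⟩
    refine ⟨?_, by simpa [Gr] using hl'⟩
    intro x hx y hy
    rw [List.mem_map] at hx hy
    obtain ⟨x', hx', rfl⟩ := hx
    obtain ⟨y', hy', rfl⟩ := hy
    have h1 := hl'' x' hx'
    have h2 := hl'' y' hy'
    rw [sub_zero, abs_le] at h1 h2
    refine ⟨_, ⟨t ^ (ht φ x'), ⟨ht φ x', ⟨h1.1, h1.2⟩, rfl⟩, _, hl x' hx' y' hy', rfl⟩,
      t ^ (- ht φ y'), ⟨- ht φ y', ⟨by omega, by omega⟩, rfl⟩, ?_⟩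
    simp only [fN, Subgroup.coe_mul, Subgroup.coe_inv, zpow_neg]
    group) (by rw [bd_pf, hbd]; simp)
  have hfc : (fun x : φ.ker => (x : G)) ∘ fN = f := rfl
  refine ⟨pf (fun x : φ.ker => (x : G)) w - pr f u, ?_, ?_⟩
  · apply Submodule.sub_mem
    · apply pf_mem _ hw
      rintro l ⟨hl, hl'⟩
      refine ⟨⟨?_, by simpa [Gr] using hl'⟩, ?_⟩
      · intro x hx y hy
        rw [List.mem_map] at hx hy
        obtain ⟨x', hx', rfl⟩ := hx
        obtain ⟨y', hy', rfl⟩ := hy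
        exact Or.inl ⟨_, hl x' hx' y' hy', by simp⟩
      · intro x hx
        rw [List.mem_map] at hx
        obtain ⟨x', hx', rfl⟩ := hx
        have := (mem_ker_iff_ht φ (x' : G)).mp x'.2
        rw [this]
        simp
    · apply pr_mem _ hu
      rintro l ⟨⟨hl, hl'⟩, hl''⟩ l' h1 h2
      refine ⟨⟨Ctl_mono Set.subset_union_right (prCtl_spec hl ?_ h1), ?_⟩, ?_⟩
      · intro x hx
        have h1 := hl'' x hx
        rw [sub_zero, abs_le] at h1
        exact ⟨- ht φ x, ⟨by omega, by omega⟩, by simp [f]⟩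
      · simp only [mem_Gr] at *
        omega
      · intro x hx
        have := h1 hx
        rw [List.mem_append, List.mem_map] at this
        rcases this with h | ⟨x₀, h, rfl⟩
        · exact hl'' x h
        · have := (mem_ker_iff_ht φ _).mp (hmem x₀)
          simp only [f, this]
          simp
  · have h := bd_pr f u
    rw [hbd, map_zero, add_zero] at h
    rw [map_sub, h, bd_pf, hbw, pf_comp, hfc]
    abel

lemma pf_mul_cancel (g : G) (u : Ch G) :
    pf (fun x => g * x) (pf (fun x => g⁻¹ * x) u) = u := by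
  rw [pf_comp]
  have : ((fun x => g * x) ∘ fun x => g⁻¹ * x) = fun x : G => x := by
    funext x; simp
  rw [this, pf_id]

lemma slab_UA {t : G} (ht1 : ht φ t = 1) (hN : UA φ.ker) (q : ℕ) (A : Set G)
    (hA : A.Finite) (r : ℕ) : ∃ B : Set G, B.Finite ∧ ∀ i : ℤ,
      ∀ u ∈ Sp ((Ctl A ∩ Gr q) ∩ Ht φ i r), bd u = 0 →
        ∃ w ∈ Sp ((Ctl B ∩ Gr (q + 1)) ∩ Ht φ i r), bd w = u := by
  obtain ⟨B, hB, h⟩ := slab_UA_zero φ ht1 hN q A hA r
  refine ⟨B, hB, ?_⟩
  intro i u hu hbd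
  obtain ⟨w, hw, hbw⟩ := h (pf (fun x => (t ^ i)⁻¹ * x) u) (by
    apply pf_mem _ hu
    rintro l ⟨⟨hl, hl'⟩, hl''⟩
    refine ⟨⟨Ctl_map_mul _ hl, by simpa [Gr] using hl'⟩, ?_⟩
    intro x hx
    rw [List.mem_map] at hx
    obtain ⟨x', hx', rfl⟩ := hx
    have := hl'' x' hx'
    rw [ht_mul, ht_inv, ht_zpow φ ht1]
    have e : -i + ht φ x' - 0 = ht φ x' - i := by ring
    rwa [e]) (by rw [bd_pf, hbd]; simp)
  refine ⟨pf (fun x => t ^ i * x) w, ?_, ?_⟩
  · apply pf_mem _ hw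
    rintro l ⟨⟨hl, hl'⟩, hl''⟩
    refine ⟨⟨Ctl_map_mul _ hl, by simpa [Gr] using hl'⟩, ?_⟩
    intro x hx
    rw [List.mem_map] at hx
    obtain ⟨x', hx', rfl⟩ := hx
    have := hl'' x' hx'
    rw [ht_mul, ht_zpow φ ht1]
    have e : i + ht φ x' - i = ht φ x' - 0 := by ring
    rwa [e]
  · rw [bd_pf, hbw, pf_mul_cancel]

/-- The height of the first entry of a list. -/
def hh : List G → ℤ
  | [] => 0
  | x :: _ => ht φ x

omit [Group G] in
lemma filter_mem {p : Set (List G)} {u : Ch G} (hu : u ∈ Sp p) (P : List G → Prop)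
    [DecidablePred P] : u.filter P ∈ Sp (p ∩ {l | P l}) := by
  rw [mem_Sp] at *
  intro l hl
  rw [Finsupp.filter_apply] at hl
  split_ifs at hl with h
  · exact ⟨hu l hl, h⟩
  · exact absurd rfl hl

lemma UA_ext (hφ : Function.Surjective φ) (hN : UA φ.ker) : UA G := by
  classical
  obtain ⟨t, htt⟩ := hφ (Multiplicative.ofAdd 1)
  have ht1 : ht φ t = 1 := by simp [ht, htt]
  intro q A hA
  -- a bound on heights of `A`
  obtain ⟨r, hr⟩ : ∃ r : ℕ, ∀ a ∈ A, |ht φ a| ≤ (r : ℤ) := by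
    obtain ⟨m, hm⟩ := (hA.image (fun a => |ht φ a|)).bddAbove
    refine ⟨m.toNat, fun a ha => ?_⟩
    have := hm ⟨a, ha, rfl⟩
    have h2 := abs_nonneg (ht φ a)
    simp only at this
    omega
  rcases q with _ | q
  · refine ⟨{1}, Set.finite_singleton _, ?_⟩
    intro u hu _
    refine ⟨cns 1 u, ?_, ?_⟩
    · apply cns_mem _ hu
      rintro l ⟨_, hl⟩
      have : l = [] := List.length_eq_zero_iff.mp hl
      subst this
      refine ⟨?_, by simp [Gr]⟩
      intro x hx y hy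
      simp at hx hy
      simp [hx, hy]
    · rw [bd_cns, bd_of_Gr_zero (Sp_mono Set.inter_subset_right hu)]
      simp
  obtain ⟨B₁, hB₁, h₁⟩ := slab_UA φ ht1 hN q A hA r
  obtain ⟨B₂, hB₂, h₂⟩ := slab_UA φ ht1 hN (q + 1) (A ∪ B₁) (hA.union hB₁) (r + 1)
  refine ⟨B₂, hB₂, ?_⟩
  intro z hz hbd
  -- truncations
  let zle : ℤ → Ch G := fun i => z.filter (fun l => hh φ l ≤ i)
  have hzle : ∀ i, zle i ∈ Sp ((Ctl A ∩ Gr (q + 1)) ∩ {l | hh φ l ≤ i}) :=
    fun i => filter_mem hz _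
  have near : ∀ l ∈ Ctl A ∩ Gr (q + 1), ∀ y ∈ l, |ht φ y - hh φ l| ≤ r := by
    rintro l ⟨hl, hl'⟩ y hy
    rcases l with _ | ⟨x, l⟩
    · simp at hy
    · have := hr _ (hl x (by simp) y hy)
      rw [ht_mul, ht_inv] at this
      simp only [hh]
      have e : ht φ y - ht φ x = - ht φ x + ht φ y := by ring
      rw [e]; exact this
  have hw : ∀ i, bd (zle i) ∈ Sp ((Ctl A ∩ Gr q) ∩ Ht φ i r) := by
    intro i
    have h1 : bd (zle i) ∈ Sp (Ctl A ∩ Gr q) :=
      bd_mem (SubC_Ctl A) (Sp_mono Set.inter_subset_left (hzle i))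
    have h2 : bd (zle i) ∈ Sp (On {y | ht φ y ≤ i + r}) := by
      apply map_mem_of_Sp _ (hzle i)
      rintro l ⟨hl, hl'⟩
      rw [bd_single, one_smul]
      apply Sp_mono _ (dl_mem l)
      rintro l' ⟨h1, h2⟩ y hy
      have := near l hl y (h1 hy)
      rw [abs_le] at this
      have h3 : hh φ l ≤ i := hl'
      show ht φ y ≤ i + r
      omega
    have h3 : bd (zle i) = - bd (z.filter (fun l => ¬ hh φ l ≤ i)) := by
      rw [eq_neg_iff_add_eq_zero, ← map_add, Finsupp.filter_add_filter_not, hbd]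
    have h4 : bd (zle i) ∈ Sp (On {y | i - r ≤ ht φ y}) := by
      rw [h3]
      apply Submodule.neg_mem
      apply map_mem_of_Sp _ (filter_mem hz _)
      rintro l ⟨hl, hl'⟩
      rw [bd_single, one_smul]
      apply Sp_mono _ (dl_mem l)
      rintro l' ⟨h1, h2⟩ y hy
      have := near l hl y (h1 hy)
      rw [abs_le] at this
      have h3 : ¬ hh φ l ≤ i := hl'
      show i - r ≤ ht φ y
      omega
    apply Sp_mono _ (Sp_inter h1 (Sp_inter h2 h4))
    rintro l ⟨hl, hl1, hl2⟩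
    refine ⟨hl, fun y hy => ?_⟩
    have a1 := hl1 y hy
    have a2 := hl2 y hy
    rw [abs_le]
    have a1' : ht φ y ≤ i + r := a1
    have a2' : i - r ≤ ht φ y := a2
    constructor <;> omega
  -- fillings of the slab boundaries
  have hv : ∀ i, ∃ v ∈ Sp ((Ctl B₁ ∩ Gr (q + 1)) ∩ Ht φ i r), bd v = bd (zle i) ∧
      (bd (zle i) = 0 → v = 0) := by
    intro i
    by_cases h : bd (zle i) = 0
    · exact ⟨0, Submodule.zero_mem _, by simp [h], fun _ => rfl⟩
    · obtain ⟨v, hv, hbv⟩ := h₁ i (bd (zle i)) (hw i) (bd_bd _)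
      exact ⟨v, hv, hbv, fun h' => absurd h' h⟩
  choose v hv hbv hv0 using hv
  -- step
  have step : ∀ i, ∃ w ∈ Sp ((Ctl B₂ ∩ Gr (q + 1 + 1)) ∩ Ht φ i ((r + 1 : ℕ) : ℤ)),
      bd w = (zle i - zle (i - 1)) - v i + v (i - 1) := by
    intro i
    apply h₂ i
    · have e1 : zle i - zle (i - 1) ∈ Sp (((Ctl (A ∪ B₁) ∩ Gr (q + 1))) ∩
          Ht φ i ((r + 1 : ℕ) : ℤ)) := by
        have : zle i - zle (i - 1) = z.filter (fun l => hh φ l = i) := by
          ext l
          simp only [zle, Finsupp.sub_apply, Finsupp.filter_apply]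
          by_cases h1 : hh φ l = i
          · have a : hh φ l ≤ i := by omega
            have b : ¬ hh φ l ≤ i - 1 := by omega
            rw [if_pos a, if_neg b, if_pos h1]; ring
          · rw [if_neg h1]
            by_cases a : hh φ l ≤ i
            · have b : hh φ l ≤ i - 1 := by omega
              rw [if_pos a, if_pos b]; ring
            · have b : ¬ hh φ l ≤ i - 1 := by omega
              rw [if_neg a, if_neg b]; ring
        rw [this]
        apply Sp_mono _ (filter_mem hz _)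
        rintro l ⟨hl, hl'⟩
        have hl'' : hh φ l = i := hl'
        refine ⟨⟨Ctl_mono Set.subset_union_left hl.1, hl.2⟩, fun y hy => ?_⟩
        have := near l hl y hy
        rw [hl''] at this
        push_cast
        linarith
      have e2 : v i ∈ Sp (((Ctl (A ∪ B₁) ∩ Gr (q + 1))) ∩ Ht φ i ((r + 1 : ℕ) : ℤ)) := by
        apply Sp_mono _ (hv i)
        rintro l ⟨hl, hl'⟩
        refine ⟨⟨Ctl_mono Set.subset_union_right hl.1, hl.2⟩, fun y hy => ?_⟩
        have := hl' y hy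
        push_cast
        linarith
      have e3 : v (i - 1) ∈ Sp (((Ctl (A ∪ B₁) ∩ Gr (q + 1))) ∩
          Ht φ i ((r + 1 : ℕ) : ℤ)) := by
        apply Sp_mono _ (hv (i - 1))
        rintro l ⟨hl, hl'⟩
        refine ⟨⟨Ctl_mono Set.subset_union_right hl.1, hl.2⟩, fun y hy => ?_⟩
        have := hl' y hy
        rw [abs_le] at this ⊢
        push_cast
        constructor <;> linarith [this.1, this.2]
      exact Submodule.add_mem _ (Submodule.sub_mem _ e1 e2) e3
    · rw [map_add, map_sub, map_sub, hbv, hbv]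
      abel
  -- bounds for heights in the support of `z`
  obtain ⟨m, hm⟩ : ∃ m : ℕ, ∀ l ∈ z.support, |hh φ l| ≤ (m : ℤ) := by
    obtain ⟨m, hm⟩ := ((z.support.finite_toSet).image (fun l => |hh φ l|)).bddAbove
    refine ⟨m.toNat, fun a ha => ?_⟩
    have := hm ⟨a, ha, rfl⟩
    have h2 := abs_nonneg (hh φ a)
    simp only at this
    omega
  have hlow : zle (-(m : ℤ) - 1) = 0 := by
    ext l
    simp only [zle, Finsupp.filter_apply, Finsupp.coe_zero, Pi.zero_apply]
    split_ifs with h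
    · by_contra hne
      have := hm l (by simpa using hne)
      rw [abs_le] at this
      omega
    · rfl
  have hhigh : zle m = z := by
    ext l
    simp only [zle, Finsupp.filter_apply]
    split_ifs with h
    · rfl
    · by_contra hne
      have := hm l (by simpa using fun h => hne h.symm)
      rw [abs_le] at this
      omega
  have claim : ∀ n : ℕ, ∃ w ∈ Sp (Ctl B₂ ∩ Gr (q + 1 + 1)),
      bd w = zle (-(m : ℤ) - 1 + n) - v (-(m : ℤ) - 1 + n) := by
    intro n
    induction n with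
    | zero =>
      refine ⟨0, Submodule.zero_mem _, ?_⟩
      have : v (-(m : ℤ) - 1) = 0 := hv0 _ (by rw [hlow]; simp)
      simp [hlow, this]
    | succ n ih =>
      obtain ⟨w, hw, hbw⟩ := ih
      obtain ⟨w', hw', hbw'⟩ := step (-(m : ℤ) - 1 + (n + 1 : ℕ))
      refine ⟨w + w', Submodule.add_mem _ hw (Sp_mono Set.inter_subset_left hw'), ?_⟩
      have e : -(m : ℤ) - 1 + ((n + 1 : ℕ) : ℤ) - 1 = -(m : ℤ) - 1 + n := by
        push_cast; ring
      rw [map_add, hbw, hbw', e]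
      abel
  obtain ⟨w, hw, hbw⟩ := claim (2 * m + 1)
  refine ⟨w, hw, ?_⟩
  have e : -(m : ℤ) - 1 + ((2 * m + 1 : ℕ) : ℤ) = m := by push_cast; ring
  rw [e, hhigh] at hbw
  have : v m = 0 := hv0 _ (by rw [hhigh, hbd])
  rw [hbw, this, sub_zero]

lemma UA_of_PolyZ : ∀ (n : ℕ) (G : Type u) [Group G], PolyZ n G → UA G
  | 0, G, _, h => by
    have : Subsingleton G := h
    exact UA_of_subsingleton
  | n + 1, G, _, h => by
    obtain ⟨φ, hφ, h'⟩ := h
    exact UA_ext φ hφ (UA_of_PolyZ n φ.ker h')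

end Vale.Agent.P188
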