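import Vale.Agent.P188.Average
import Vale.Agent.P188.Compress
import Vale.Agent.P188.Descend
import Vale.Agent.P188.Slab

/-!
Finite subgroups of a group coarsely equivalent to a poly-`ℤ` group have bounded order.
-/

universe u v w

namespace Vale.Agent.P188

open Finsupp Pointwise

lemma UA_of_coarseEquiv {H : Type u} {Z : Type v} [Group H] [Group Z] {n : ℕ}
    (hc : CoarseEquiv H Z) (hZ : PolyZ n Z) : UA H := by
  obtain ⟨F, F', hF, hF', h1, _⟩ := hc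
  exact UA_of_coarse hF hF' h1 (UA_of_PolyZ n Z hZ)

theorem exists_package {H : Type u} {Z : Type v} [Group H] [Group Z] {n : ℕ}
    (hc : CoarseEquiv H Z) (hZ : PolyZ n Z) :
    ∃ (m : ℤ) (s Θ : Ch H →ₗ[ℤ] Ch H), 0 < m ∧
      (∀ (g : H) (u : Ch H), s (act g u) = act g (s u)) ∧
      s (single [] 1) = single [] 1 ∧
      (∀ q ≤ n + 2, ∀ u ∈ Sp (Gr q : Set (List H)), s u ∈ Sp (Gr q)) ∧
      (∀ q ≤ n + 2, ∀ u ∈ Sp (Gr q : Set (List H)), bd (s u) = s (bd u)) ∧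
      (∀ (g : H) (u : Ch H), Θ (act g u) = act g (Θ u)) ∧
      (∀ u ∈ Sp (Gr (n + 1) : Set (List H)), Θ u ∈ Sp (Gr (n + 2))) ∧
      (∀ u ∈ Sp (Gr (n + 1) : Set (List H)), bd u = 0 → bd (Θ u) = m • s u) := by
  obtain ⟨A, hA, s, hs_eq, hs_nil, hs_mem, hs_bd⟩ := exists_compress (UA_of_coarseEquiv hc hZ) (n + 2)
  obtain ⟨m, hm, k, hk_eq, hk_mem, hk_bd⟩ := exists_integral_contraction hc hZ A hA
  have hs_mem' : ∀ q ≤ n + 2, ∀ u ∈ Sp (Gr q : Set (List H)), s u ∈ Sp (Gr q) :=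
    fun q hq u hu => Sp_mono Set.inter_subset_right (hs_mem q hq u hu)
  refine ⟨m, s, k ∘ₗ s, hm, hs_eq, hs_nil, hs_mem', hs_bd, ?_, ?_, ?_⟩
  · intro g u
    rw [LinearMap.comp_apply, LinearMap.comp_apply, hs_eq, hk_eq]
  · intro u hu
    exact hk_mem _ (hs_mem' _ (by omega) u hu)
  · intro u hu hbu
    have hw : cns (1 : H) u ∈ Sp (Gr (n + 2) : Set (List H)) :=
      cns_mem (fun l hl => by simpa [Gr] using hl) hu
    have hw' : bd (cns (1 : H) u) = u := by rw [bd_cns, hbu, map_zero, sub_zero]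
    have h1 : s u = bd (s (cns 1 u)) := by rw [hs_bd _ le_rfl _ hw, hw']
    rw [LinearMap.comp_apply, h1, hk_bd _ (hs_mem _ le_rfl _ hw)]

theorem card_dvd_of_coarseEquiv {H : Type u} {Z : Type v} [Group H] [Group Z] {n : ℕ}
    (hc : CoarseEquiv H Z) (hZ : PolyZ n Z) :
    ∃ m : ℕ, 0 < m ∧ ∀ F : Subgroup H, Finite F → Nat.card F ∣ m := by
  obtain ⟨m, s, Θ, hm, hs_eq, hs_nil, hs_mem, hs_bd, hΘ_eq, hΘ_mem, hΘ⟩ := exists_package hc hZ
  refine ⟨m.toNat, by omega, fun F hF => ?_⟩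
  have := descend F (n + 1) m s hs_eq hs_nil (fun q hq => hs_mem q (by omega))
    (fun q hq => hs_bd q (by omega)) Θ hΘ_eq hΘ_mem hΘ
  have h2 : (m.toNat : ℤ) = m := Int.toNat_of_nonneg hm.le
  rw [← h2] at this
  exact_mod_cast this

end Vale.Agent.P188
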