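import Mathlib.Algebra.Homology.Homotopy
import Mathlib.Algebra.Order.Archimedean.Real.Hom
import Mathlib.Algebra.Order.Chebyshev
import Mathlib.Algebra.Order.Quantale
import Mathlib.Algebra.Order.Ring.Star
import Mathlib.Algebra.Order.Star.Real
import Mathlib.Algebra.Ring.IsFormallyReal
import Mathlib.Analysis.CStarAlgebra.Classes
import Mathlib.Analysis.Complex.ExponentialBounds
import Mathlib.Analysis.Complex.Polynomial.Basic
import Mathlib.Analysis.Convex.TotallyBounded
import Mathlib.Analysis.InnerProductSpace.Completion
import Mathlib.Analysis.InnerProductSpace.Dual
import Mathlib.Computability.Reduce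
import Mathlib.Data.Int.Star
import Mathlib.Data.Pi.Interval
import Mathlib.Data.Set.Finite.List
import Mathlib.LinearAlgebra.Matrix.Gershgorin
import Mathlib.Order.CompletePartialOrder
import Mathlib.RingTheory.PicardGroup
import Mathlib.RingTheory.PowerSeries.Basic
import Mathlib.RingTheory.SimpleRing.Principal
import Mathlib.Tactic
import Mathlib.Topology.Algebra.LinearMapCompletion
import Mathlib.Topology.Algebra.ProperAction.Basic

/-! The part of Mathlib that the development of this folder uses. -/
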