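import Vale.Agent.P188.Slab

/-!
Right-invariant means: existence for poly-`ℤ` groups and transport along coarse
equivalences.
-/

universe u v w

namespace Vale.Agent.P188

open Filter Topology

/-- Bounded real functions. -/
def Bdd {X : Type u} (f : X → ℝ) : Prop := ∃ M : ℝ, ∀ x, |f x| ≤ M

lemma Bdd.add {X : Type u} {f g : X → ℝ} (hf : Bdd f) (hg : Bdd g) : Bdd (f + g) := by
  obtain ⟨M, hM⟩ := hf
  obtain ⟨N, hN⟩ := hg
  exact ⟨M + N, fun x => (abs_add_le _ _).trans (add_le_add (hM x) (hN x))⟩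

lemma Bdd.const_mul {X : Type u} {f : X → ℝ} (hf : Bdd f) (a : ℝ) :
    Bdd (fun x => a * f x) := by
  obtain ⟨M, hM⟩ := hf
  refine ⟨|a| * M, fun x => ?_⟩
  rw [abs_mul]
  exact mul_le_mul_of_nonneg_left (hM x) (abs_nonneg a)

lemma Bdd.comp {X : Type u} {Y : Type v} {f : X → ℝ} (hf : Bdd f) (g : Y → X) :
    Bdd (fun y => f (g y)) := by
  obtain ⟨M, hM⟩ := hf
  exact ⟨M, fun y => hM (g y)⟩

lemma Bdd.const {X : Type u} (a : ℝ) : Bdd (fun _ : X => a) := ⟨|a|, fun _ => le_rfl⟩

/-- A functional on real functions which behaves like a mean on bounded functions. -/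
structure IsMean {X : Type u} (μ : (X → ℝ) → ℝ) : Prop where
  add : ∀ f g, Bdd f → Bdd g → μ (f + g) = μ f + μ g
  smul : ∀ (a : ℝ) f, Bdd f → μ (fun x => a * f x) = a * μ f
  nonneg : ∀ f, Bdd f → (∀ x, 0 ≤ f x) → 0 ≤ μ f
  one : μ (fun _ => 1) = 1

lemma IsMean.le {X : Type u} {μ : (X → ℝ) → ℝ} (h : IsMean μ) {f g : X → ℝ} (hf : Bdd f)
    (hg : Bdd g) (hfg : ∀ x, f x ≤ g x) : μ f ≤ μ g := by
  have h1 : Bdd (g + fun x => (-1) * f x) := hg.add (hf.const_mul (-1))
  have h2 := h.nonneg _ h1 (fun x => by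
    have := hfg x
    simp only [Pi.add_apply]
    linarith)
  rw [h.add _ _ hg (hf.const_mul (-1)), h.smul _ _ hf] at h2
  linarith

lemma IsMean.const {X : Type u} {μ : (X → ℝ) → ℝ} (h : IsMean μ) (a : ℝ) :
    μ (fun _ => a) = a := by
  have := h.smul a (fun _ => 1) (Bdd.const 1)
  rw [h.one] at this
  simpa using this

lemma IsMean.abs_le {X : Type u} {μ : (X → ℝ) → ℝ} (h : IsMean μ) {f : X → ℝ} {M : ℝ}
    (hf : ∀ x, |f x| ≤ M) : |μ f| ≤ M := by
  have hb : Bdd f := ⟨M, hf⟩
  rw [_root_.abs_le]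
  constructor
  · have := h.le (Bdd.const (-M)) hb (fun x => (_root_.abs_le.mp (hf x)).1)
    rwa [h.const] at this
  · have := h.le hb (Bdd.const M) (fun x => (_root_.abs_le.mp (hf x)).2)
    rwa [h.const] at this

/-- A group has a right-invariant mean. -/
def HasMean (G : Type u) [Group G] : Prop :=
  ∃ μ : (G → ℝ) → ℝ, IsMean μ ∧ ∀ (g : G) f, Bdd f → μ (fun x => f (x * g)) = μ f

lemma hasMean_of_subsingleton (G : Type u) [Group G] [Subsingleton G] : HasMean G := by
  refine ⟨fun f => f 1, ⟨fun _ _ _ _ => rfl, fun _ _ _ => rfl, fun f _ h => h 1, rfl⟩, ?_⟩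
  intro g f _
  have : g = 1 := Subsingleton.elim _ _
  simp [this]

/-- Ultrafilter limit of a sequence. -/
noncomputable def ulim (a : ℕ → ℝ) : ℝ := limUnder (hyperfilter ℕ : Filter ℕ) a

lemma tendsto_ulim {a : ℕ → ℝ} (ha : Bdd a) :
    Tendsto a (hyperfilter ℕ : Filter ℕ) (𝓝 (ulim a)) := by
  obtain ⟨M, hM⟩ := ha
  have hc : IsCompact (Set.Icc (-M) M) := isCompact_Icc
  have hle : ((hyperfilter ℕ).map a : Filter ℝ) ≤ 𝓟 (Set.Icc (-M) M) := by
    rw [Filter.le_principal_iff]
    exact Filter.mem_map.mpr (Filter.univ_mem' (fun n => _root_.abs_le.mp (hM n)))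
  obtain ⟨x, _, hx⟩ := hc.ultrafilter_le_nhds ((hyperfilter ℕ).map a) hle
  exact tendsto_nhds_limUnder ⟨x, hx⟩

lemma ulim_eq {a : ℕ → ℝ} {x : ℝ} (h : Tendsto a (hyperfilter ℕ : Filter ℕ) (𝓝 x)) :
    ulim a = x := h.limUnder_eq

/-- Cesàro averages. -/
noncomputable def ces (f : ℤ → ℝ) (n : ℕ) : ℝ :=
  (∑ i ∈ Finset.range (n + 1), f i) / (n + 1)

lemma ces_abs_le {f : ℤ → ℝ} {M : ℝ} (hM : ∀ x, |f x| ≤ M) (n : ℕ) : |ces f n| ≤ M := by
  have hn : (0 : ℝ) < (n : ℝ) + 1 := by positivity
  unfold ces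
  rw [abs_div, abs_of_pos hn, div_le_iff₀ hn]
  calc |∑ i ∈ Finset.range (n + 1), f i| ≤ ∑ i ∈ Finset.range (n + 1), |f i| :=
        Finset.abs_sum_le_sum_abs _ _
    _ ≤ ∑ _i ∈ Finset.range (n + 1), M := Finset.sum_le_sum (fun i _ => hM i)
    _ = M * (n + 1) := by simp; ring

lemma Bdd.ces {f : ℤ → ℝ} (hf : Bdd f) : Bdd (ces f) := by
  obtain ⟨M, hM⟩ := hf
  exact ⟨M, ces_abs_le hM⟩

/-- A shift-invariant mean on `ℤ`. -/
noncomputable def zmean (f : ℤ → ℝ) : ℝ := ulim (ces f)

lemma isMean_zmean : IsMean zmean where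
  add := by
    intro f g hf hg
    apply ulim_eq
    have h : ces (f + g) = fun n => ces f n + ces g n := by
      funext n
      simp only [ces, Pi.add_apply, Finset.sum_add_distrib, add_div]
    rw [h]
    exact (tendsto_ulim hf.ces).add (tendsto_ulim hg.ces)
  smul := by
    intro a f hf
    apply ulim_eq
    have h : ces (fun x => a * f x) = fun n => a * ces f n := by
      funext n
      simp only [ces, ← Finset.mul_sum, mul_div_assoc]
    rw [h]
    exact (tendsto_ulim hf.ces).const_mul a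
  nonneg := by
    intro f hf h
    apply ge_of_tendsto' (tendsto_ulim hf.ces)
    intro n
    unfold ces
    apply div_nonneg
    · exact Finset.sum_nonneg (fun i _ => h i)
    · positivity
  one := by
    apply ulim_eq
    have h : ces (fun _ => (1 : ℝ)) = fun _ => 1 := by
      funext n
      unfold ces
      have hn : ((n : ℝ) + 1) ≠ 0 := by positivity
      have hs : ∑ _i ∈ Finset.range (n + 1), (1 : ℝ) = n + 1 := by simp
      rw [hs, div_self hn]
    rw [h]
    exact tendsto_const_nhds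

lemma zmean_shift {f : ℤ → ℝ} (hf : Bdd f) : zmean (fun i => f (i + 1)) = zmean f := by
  apply ulim_eq
  have h : ces (fun i => f (i + 1)) = fun n : ℕ => ces f n + (f (n + 1) - f 0) / (n + 1) := by
    funext n
    unfold ces
    rw [← add_div]
    congr 1
    have e1 := Finset.sum_range_succ (fun i : ℕ => f i) (n + 1)
    have e2 := Finset.sum_range_succ' (fun i : ℕ => f i) (n + 1)
    rw [e1] at e2
    push_cast at e2 ⊢
    linarith
  rw [h]
  have h2 : Tendsto (fun n : ℕ => (f (n + 1) - f 0) / ((n : ℝ) + 1)) atTop (𝓝 0) := by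
    obtain ⟨M, hM⟩ := hf
    have h3 : Tendsto (fun n : ℕ => (2 * M) / ((n : ℝ) + 1)) atTop (𝓝 0) := by
      have := (tendsto_one_div_add_atTop_nhds_zero_nat (𝕜 := ℝ)).const_mul (2 * M)
      simpa [div_eq_mul_inv] using this
    apply squeeze_zero_norm _ h3
    intro n
    have hn : (0 : ℝ) < (n : ℝ) + 1 := by positivity
    rw [Real.norm_eq_abs, abs_div, abs_of_pos hn]
    apply div_le_div_of_nonneg_right _ hn.le
    calc |f (n + 1) - f 0| ≤ |f (n + 1)| + |f 0| := abs_sub _ _
      _ ≤ 2 * M := by linarith [hM (n + 1), hM 0]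
  have h3 : (hyperfilter ℕ : Filter ℕ) ≤ atTop := by
    rw [← Nat.cofinite_eq_atTop]
    exact Filter.hyperfilter_le_cofinite
  have := (tendsto_ulim hf.ces).add (h2.mono_left h3)
  rw [add_zero] at this
  exact this

lemma zmean_shift_zpow {f : ℤ → ℝ} (hf : Bdd f) (j : ℤ) :
    zmean (fun i => f (i + j)) = zmean f := by
  induction j using Int.induction_on with
  | zero => simp
  | succ n ih =>
    have := zmean_shift (f := fun i => f (i + n)) (hf.comp _)
    rw [← ih, ← this]
    congr 1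
    funext i
    congr 1
    ring
  | pred n ih =>
    have := zmean_shift (f := fun i => f (i + (-n - 1))) (hf.comp _)
    rw [← this, ← ih]
    congr 1
    funext i
    congr 1
    ring

lemma hasMean_ext {G : Type u} [Group G] (φ : G →* Multiplicative ℤ)
    (hφ : Function.Surjective φ) (hN : HasMean φ.ker) : HasMean G := by
  obtain ⟨t, htt⟩ := hφ (Multiplicative.ofAdd 1)
  have ht1 : ht φ t = 1 := by simp [ht, htt]
  obtain ⟨μ, hμ, hinv⟩ := hN
  let ν : (G → ℝ) → ℤ → ℝ := fun f i => μ (fun x : φ.ker => f (x * t ^ i))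
  have hν : ∀ f, Bdd f → Bdd (ν f) := by
    rintro f ⟨M, hM⟩
    exact ⟨M, fun i => hμ.abs_le (fun x => hM _)⟩
  refine ⟨fun f => zmean (ν f), ⟨?_, ?_, ?_, ?_⟩, ?_⟩
  · intro f g hf hg
    have : ν (f + g) = ν f + ν g := by
      funext i
      exact hμ.add _ _ (hf.comp _) (hg.comp _)
    simp only [this]
    exact isMean_zmean.add _ _ (hν f hf) (hν g hg)
  · intro a f hf
    have : ν (fun x => a * f x) = fun i => a * ν f i := by
      funext i
      exact hμ.smul a _ (hf.comp _)
    simp only [this]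
    exact isMean_zmean.smul a _ (hν f hf)
  · intro f hf h
    apply isMean_zmean.nonneg _ (hν f hf)
    intro i
    exact hμ.nonneg _ (hf.comp _) (fun x => h _)
  · have : ν (fun _ => 1) = fun _ => 1 := by
      funext i
      exact hμ.one
    simp only [this]
    exact isMean_zmean.one
  · intro g f hf
    have key : ν (fun x => f (x * g)) = fun i => ν f (i + ht φ g) := by
      funext i
      have hmem : t ^ i * g * (t ^ (i + ht φ g))⁻¹ ∈ φ.ker := by
        rw [mem_ker_iff_ht, ht_mul, ht_mul, ht_inv, ht_zpow φ ht1, ht_zpow φ ht1]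
        ring
      have := hinv ⟨_, hmem⟩ (fun x : φ.ker => f (x * t ^ (i + ht φ g))) (hf.comp _)
      show μ (fun x : φ.ker => f (x * t ^ i * g)) = μ (fun x : φ.ker => f (x * t ^ (i + ht φ g)))
      rw [← this]
      congr 1
      funext x
      congr 1
      simp only [Subgroup.coe_mul]
      group
    simp only [key]
    exact zmean_shift_zpow (hν f hf) _

lemma hasMean_of_PolyZ : ∀ (n : ℕ) (G : Type u) [Group G], PolyZ n G → HasMean G
  | 0, G, _, h => by
    have : Subsingleton G := h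
    exact hasMean_of_subsingleton G
  | n + 1, G, _, h => by
    obtain ⟨φ, hφ, h'⟩ := h
    exact hasMean_ext φ hφ (hasMean_of_PolyZ n φ.ker h')

lemma IsMean.sum {X : Type u} {μ : (X → ℝ) → ℝ} (h : IsMean μ) {ι : Type v} (s : Finset ι)
    (f : ι → X → ℝ) (hf : ∀ i ∈ s, Bdd (f i)) :
    Bdd (fun x => ∑ i ∈ s, f i x) ∧ μ (fun x => ∑ i ∈ s, f i x) = ∑ i ∈ s, μ (f i) := by
  classical
  induction s using Finset.induction_on with
  | empty =>
    simp only [Finset.sum_empty]
    exact ⟨Bdd.const 0, h.const 0⟩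
  | insert a s ha ih =>
    obtain ⟨h1, h2⟩ := ih (fun i hi => hf i (Finset.mem_insert_of_mem hi))
    have h3 := hf a (Finset.mem_insert_self a s)
    have e : (fun x => ∑ i ∈ insert a s, f i x) = f a + fun x => ∑ i ∈ s, f i x := by
      funext x
      rw [Finset.sum_insert ha]
      rfl
    rw [e]
    refine ⟨h3.add h1, ?_⟩
    rw [h.add _ _ h3 h1, h2, Finset.sum_insert ha]

/-- Transport of invariant means along coarse equivalences. -/
lemma hasMean_of_coarseEquiv {H : Type u} {G : Type v} [Group H] [Group G]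
    (hc : CoarseEquiv H G) (hG : HasMean G) : HasMean H := by
  classical
  obtain ⟨F, F', hF, hF', ⟨E, hE, hE'⟩, ⟨E₂, hE₂, hE₂'⟩⟩ := hc
  obtain ⟨μ, hμ, hinv⟩ := hG
  -- finite fibres
  have hsub : ∀ y : G, {x : H | F x = y} ⊆ (fun e => F' y * e⁻¹) '' E := by
    intro y x hx
    refine ⟨x⁻¹ * F' (F x), hE' x, ?_⟩
    have : F x = y := hx
    simp only [this]
    group
  have hfin : ∀ y : G, {x : H | F x = y}.Finite := fun y => (hE.image _).subset (hsub y)
  let fib : G → Finset H := fun y => (hfin y).toFinset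
  have hfib : ∀ y x, x ∈ fib y ↔ F x = y := by
    intro y x
    simp [fib]
  have hcard : ∀ y, (fib y).card ≤ hE.toFinset.card := by
    intro y
    have : fib y ⊆ hE.toFinset.image (fun e => F' y * e⁻¹) := by
      intro x hx
      rw [hfib] at hx
      obtain ⟨e, he, rfl⟩ := hsub y hx
      exact Finset.mem_image.mpr ⟨e, by simpa using he, rfl⟩
    exact (Finset.card_le_card this).trans Finset.card_image_le
  let ps : (H → ℝ) → G → ℝ := fun f y => ∑ x ∈ fib y, f x
  have hps : ∀ f, Bdd f → Bdd (ps f) := by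
    rintro f ⟨M, hM⟩
    refine ⟨hE.toFinset.card * M, fun y => ?_⟩
    have hM0 : 0 ≤ M := (abs_nonneg _).trans (hM 1)
    calc |ps f y| ≤ ∑ x ∈ fib y, |f x| := Finset.abs_sum_le_sum_abs _ _
      _ ≤ ∑ _x ∈ fib y, M := Finset.sum_le_sum (fun x _ => hM x)
      _ = (fib y).card * M := by simp
      _ ≤ hE.toFinset.card * M := by
          apply mul_le_mul_of_nonneg_right _ hM0
          exact_mod_cast hcard y
  have hps_add : ∀ f g, ps (f + g) = ps f + ps g := by
    intro f g
    funext y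
    simp [ps, Finset.sum_add_distrib]
  have hps_smul : ∀ (a : ℝ) f, ps (fun x => a * f x) = fun y => a * ps f y := by
    intro a f
    funext y
    simp [ps, Finset.mul_sum]
  -- positivity of the total mass
  have hpos : 0 < μ (ps (fun _ => 1)) := by
    have h1 : ∀ y : G, 1 ≤ ∑ e ∈ hE₂.toFinset, ps (fun _ => 1) (y * e) := by
      intro y
      have he : y⁻¹ * F (F' y) ∈ hE₂.toFinset := by simpa using hE₂' y
      have h2 : (1 : ℝ) ≤ ps (fun _ => 1) (y * (y⁻¹ * F (F' y))) := by
        have : F' y ∈ fib (y * (y⁻¹ * F (F' y))) := by rw [hfib]; group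
        have hc : 1 ≤ (fib (y * (y⁻¹ * F (F' y)))).card := Finset.card_pos.mpr ⟨_, this⟩
        simp only [ps, Finset.sum_const, nsmul_eq_mul, mul_one]
        exact_mod_cast hc
      refine h2.trans ?_
      apply Finset.single_le_sum (f := fun e => ps (fun _ => 1) (y * e)) _ he
      intro e _
      exact Finset.sum_nonneg (fun _ _ => zero_le_one)
    have hb1 : Bdd (ps (fun _ => 1)) := hps _ (Bdd.const 1)
    obtain ⟨hb2, hs⟩ := hμ.sum hE₂.toFinset (fun e y => ps (fun _ => 1) (y * e))
      (fun e _ => hb1.comp _)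
    have h3 := hμ.le (Bdd.const 1) hb2 h1
    rw [hμ.one, hs] at h3
    have h4 : ∑ e ∈ hE₂.toFinset, μ (fun y => ps (fun _ => 1) (y * e)) =
        hE₂.toFinset.card * μ (ps (fun _ => 1)) := by
      rw [Finset.sum_congr rfl (fun e _ => hinv e _ hb1)]
      simp
    rw [h4] at h3
    by_contra hneg
    have : (hE₂.toFinset.card : ℝ) * μ (ps (fun _ => 1)) ≤ 0 :=
      mul_nonpos_of_nonneg_of_nonpos (Nat.cast_nonneg _) (not_lt.mp hneg)
    linarith
  set c := μ (ps (fun _ => 1)) with hcdef
  refine ⟨fun f => μ (ps f) / c, ⟨?_, ?_, ?_, ?_⟩, ?_⟩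
  · intro f g hf hg
    simp only [hps_add]
    rw [hμ.add _ _ (hps f hf) (hps g hg), add_div]
  · intro a f hf
    simp only [hps_smul]
    rw [hμ.smul _ _ (hps f hf), mul_div_assoc]
  · intro f hf h
    apply div_nonneg _ hpos.le
    exact hμ.nonneg _ (hps f hf) (fun y => Finset.sum_nonneg (fun x _ => h x))
  · exact div_self hpos.ne'
  · intro g f hf
    simp only
    congr 1
    obtain ⟨U, hU, hU'⟩ := hF {g⁻¹} (Set.finite_singleton _)
    have hu : ∀ x : H, (F (x * g))⁻¹ * F x ∈ hU.toFinset := by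
      intro x
      have := hU' (x * g) x (by simp)
      simpa using this
    let fu : G → H → ℝ := fun u x => if (F x)⁻¹ * F (x * g⁻¹) = u then f x else 0
    have hfu : ∀ u, Bdd (fu u) := by
      obtain ⟨M, hM⟩ := hf
      have hM0 : 0 ≤ M := (abs_nonneg _).trans (hM 1)
      intro u
      refine ⟨M, fun x => ?_⟩
      simp only [fu]
      split_ifs
      · exact hM x
      · simpa using hM0
    have e1 : ps (fun x => f (x * g)) = fun y => ∑ u ∈ hU.toFinset, ps (fu u) (y * u⁻¹) := by
      funext y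
      have s1 : ps (fun x => f (x * g)) y = ∑ u ∈ hU.toFinset,
          ∑ x ∈ fib y with (F (x * g))⁻¹ * F x = u, f (x * g) := by
        rw [Finset.sum_fiberwise_of_maps_to (fun x _ => hu x)]
      rw [s1]
      apply Finset.sum_congr rfl
      intro u _
      simp only [ps, fu]
      rw [← Finset.sum_filter]
      apply Finset.sum_nbij' (fun x => x * g) (fun x => x * g⁻¹)
      · intro x hx
        rw [Finset.mem_filter, hfib] at hx ⊢
        obtain ⟨h1, h2⟩ := hx
        constructor
        · rw [← h1, ← h2]; group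
        · rw [mul_inv_cancel_right]; exact h2
      · intro x hx
        rw [Finset.mem_filter, hfib] at hx ⊢
        obtain ⟨h1, h2⟩ := hx
        constructor
        · calc F (x * g⁻¹) = F x * ((F x)⁻¹ * F (x * g⁻¹)) := by group
            _ = y := by rw [h2, h1]; group
        · rw [inv_mul_cancel_right]; exact h2
      · intro x _; simp
      · intro x _; simp
      · intro x _; rfl
    have e2 : ps f = fun y => ∑ u ∈ hU.toFinset, ps (fu u) y := by
      funext y
      simp only [ps]
      rw [Finset.sum_comm]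
      apply Finset.sum_congr rfl
      intro x _
      simp only [fu]
      rw [Finset.sum_ite_eq, if_pos]
      have := hu (x * g⁻¹)
      rwa [inv_mul_cancel_right] at this
    obtain ⟨_, s1⟩ := hμ.sum hU.toFinset (fun u y => ps (fu u) (y * u⁻¹))
      (fun u _ => (hps _ (hfu u)).comp _)
    obtain ⟨_, s2⟩ := hμ.sum hU.toFinset (fun u y => ps (fu u) y)
      (fun u _ => hps _ (hfu u))
    rw [e1, s1]
    conv_rhs => rw [e2]
    rw [s2]
    apply Finset.sum_congr rfl
    intro u _
    exact hinv u⁻¹ _ (hps _ (hfu u))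

end Vale.Agent.P188
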