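import Vale.Agent.P188.Contract
import Vale.Agent.P188.Mean

/-!
Norms of chains, finiteness of sets of lists, and rational invariant functionals.
-/

universe u v w

namespace Vale.Agent.P188

open Finsupp

section Norm

variable {X : Type u} {Y : Type v}

/-- The `ℓ¹` norm of a chain. -/
def nm (u : Ch X) : ℤ := u.sum (fun _ a => |a|)

lemma nm_nonneg (u : Ch X) : 0 ≤ nm u :=
  Finset.sum_nonneg (fun _ _ => abs_nonneg _)

lemma abs_le_nm (u : Ch X) (l : List X) : |u l| ≤ nm u := by
  classical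
  by_cases h : l ∈ u.support
  · exact Finset.single_le_sum (f := fun l => |u l|) (fun _ _ => abs_nonneg _) h
  · rw [Finsupp.notMem_support_iff.mp h, abs_zero]
    exact nm_nonneg u

lemma nm_single (l : List X) (a : ℤ) : nm (single l a) = |a| := by
  simp [nm]

lemma nm_add (u v : Ch X) : nm (u + v) ≤ nm u + nm v := by
  classical
  have h : ∀ w : Ch X, w.support ⊆ u.support ∪ v.support → nm w =
      ∑ l ∈ u.support ∪ v.support, |w l| := by
    intro w hw
    exact Finsupp.sum_of_support_subset _ hw _ (fun _ _ => abs_zero)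
  rw [h _ Finsupp.support_add, h u Finset.subset_union_left, h v Finset.subset_union_right,
    ← Finset.sum_add_distrib]
  exact Finset.sum_le_sum (fun l _ => abs_add_le _ _)

lemma nm_neg (u : Ch X) : nm (-u) = nm u := by
  unfold nm
  rw [Finsupp.sum, Finsupp.sum, Finsupp.support_neg]
  simp

lemma nm_sub (u v : Ch X) : nm (u - v) ≤ nm u + nm v := by
  rw [sub_eq_add_neg]
  exact (nm_add _ _).trans (by rw [nm_neg])

lemma nm_zero : nm (0 : Ch X) = 0 := by simp [nm]

lemma nm_sum {ι : Type w} (s : Finset ι) (f : ι → Ch X) :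
    nm (∑ i ∈ s, f i) ≤ ∑ i ∈ s, nm (f i) := by
  classical
  induction s using Finset.induction_on with
  | empty => simp [nm_zero]
  | insert a s ha ih =>
    rw [Finset.sum_insert ha, Finset.sum_insert ha]
    exact (nm_add _ _).trans (by linarith)

lemma nm_mapDomain (f : List X → List Y) (u : Ch X) : nm (Finsupp.mapDomain f u) ≤ nm u := by
  unfold Finsupp.mapDomain
  rw [Finsupp.sum]
  refine (nm_sum _ _).trans ?_
  simp only [nm_single]
  exact le_rfl

lemma nm_pf (f : X → Y) (u : Ch X) : nm (pf f u) ≤ nm u := nm_mapDomain _ _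

lemma nm_cns (x : X) (u : Ch X) : nm (cns x u) ≤ nm u := nm_mapDomain _ _

lemma nm_prl (f : X → X) (l : List X) : nm (prl f l) ≤ l.length := by
  induction l with
  | nil => simp [prl, nm_zero]
  | cons x t ih =>
    rw [prl_cons]
    refine (nm_sub _ _).trans ?_
    rw [nm_single]
    have := nm_cns x (prl f t)
    simp only [abs_one, List.length_cons]
    push_cast
    linarith

/-- Finiteness of the set of lists of given length with entries in a finite set. -/
lemma finite_lists {W : Set X} (hW : W.Finite) (n : ℕ) : (On W ∩ Gr n : Set (List X)).Finite := by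
  induction n with
  | zero =>
    apply (Set.finite_singleton ([] : List X)).subset
    rintro l ⟨_, hl⟩
    exact List.length_eq_zero_iff.mp hl
  | succ n ih =>
    apply (Set.Finite.image2 (fun x l => x :: l) hW ih).subset
    rintro l ⟨hl, hl'⟩
    rcases l with _ | ⟨x, t⟩
    · simp [Gr] at hl'
    · refine ⟨x, hl x (by simp), t, ⟨fun y hy => hl y (by simp [hy]), ?_⟩, rfl⟩
      simpa [Gr] using hl'

lemma bd_apply_eq (u : Ch X) (T : Finset (List X)) (hT : ∀ l, u l ≠ 0 → l ∈ T)
    (ξ : List X) : (bd u) ξ = ∑ l ∈ T, u l * (dl l) ξ := by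
  classical
  have h1 : bd u = ∑ l ∈ T, u l • dl l := by
    rw [bd, Finsupp.linearCombination_apply]
    apply Finsupp.sum_of_support_subset
    · intro l hl
      exact hT l (by simpa using hl)
    · intro l _
      simp
  rw [h1, Finsupp.finsetSum_apply]
  rfl

lemma lin_apply_eq {K : Ch X →ₗ[ℤ] Ch Y} (u : Ch X) (T : Finset (List X))
    (hT : ∀ l, u l ≠ 0 → l ∈ T) (ξ : List Y) :
    (K u) ξ = ∑ l ∈ T, u l * (K (single l 1)) ξ := by
  classical
  have h1 : K u = ∑ l ∈ T, u l • K (single l 1) := by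
    conv_lhs => rw [← Finsupp.sum_single u]
    rw [Finsupp.sum, map_sum]
    have h2 : ∀ l, K (single l (u l)) = u l • K (single l 1) := by
      intro l
      rw [← map_smul]
      simp
    simp only [h2]
    apply Finset.sum_subset
    · intro l hl
      exact hT l (by simpa using hl)
    · intro l _ hl
      rw [Finsupp.notMem_support_iff.mp hl, zero_smul]
  rw [h1, Finsupp.finsetSum_apply]
  rfl

end Norm

section Functional

/-- Bounded integer functions. -/
def BddZ {X : Type u} (f : X → ℤ) : Prop := ∃ M : ℤ, ∀ x, |f x| ≤ M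

lemma BddZ.cast {X : Type u} {f : X → ℤ} (hf : BddZ f) : Bdd (fun x => (f x : ℝ)) := by
  obtain ⟨M, hM⟩ := hf
  refine ⟨M, fun x => ?_⟩
  have := hM x
  show |(f x : ℝ)| ≤ M
  exact_mod_cast this

lemma exists_rho : ∃ ρ : ℝ →ₗ[ℚ] ℚ, ρ 1 = 1 := by
  have hinj : LinearMap.ker (Algebra.linearMap ℚ ℝ) = ⊥ := by
    rw [LinearMap.ker_eq_bot]
    exact (algebraMap ℚ ℝ).injective
  obtain ⟨ρ, hρ⟩ := LinearMap.exists_leftInverse_of_injective _ hinj
  refine ⟨ρ, ?_⟩
  have := LinearMap.congr_fun hρ 1
  simpa using this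

/-- A rational-valued invariant functional on bounded integer functions. -/
lemma exists_functional {H : Type u} [Group H] (h : HasMean H) :
    ∃ J : (H → ℤ) → ℚ,
      (∀ {ι : Type u} (s : Finset ι) (a : ι → ℤ) (f : ι → H → ℤ), (∀ i ∈ s, BddZ (f i)) →
        J (fun x => ∑ i ∈ s, a i * f i x) = ∑ i ∈ s, (a i : ℚ) * J (f i)) ∧
      (∀ a : ℤ, J (fun _ => a) = a) ∧
      (∀ (g : H) f, BddZ f → J (fun x => f (x * g)) = J f) := by
  obtain ⟨μ, hμ, hinv⟩ := h
  obtain ⟨ρ, hρ⟩ := exists_rho
  have hρZ : ∀ (a : ℤ) (x : ℝ), ρ ((a : ℝ) * x) = (a : ℚ) * ρ x := by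
    intro a x
    have := ρ.map_smul (a : ℚ) x
    rw [Rat.smul_def, smul_eq_mul] at this
    rw [← this]
    simp
  refine ⟨fun f => ρ (μ (fun x => (f x : ℝ))), ?_, ?_, ?_⟩
  · intro ι s a f hf
    have e1 : (fun x => ((∑ i ∈ s, a i * f i x : ℤ) : ℝ)) =
        fun x => ∑ i ∈ s, (a i : ℝ) * (f i x : ℝ) := by
      funext x
      push_cast
      rfl
    have h1 := hμ.sum s (fun i x => (a i : ℝ) * (f i x : ℝ))
      (fun i hi => (hf i hi).cast.const_mul _)
    simp only
    rw [e1, h1.2, map_sum]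
    apply Finset.sum_congr rfl
    intro i hi
    rw [hμ.smul _ _ (hf i hi).cast, hρZ]
  · intro a
    simp only
    rw [hμ.const]
    have := hρZ a 1
    rw [mul_one, hρ, mul_one] at this
    exact this
  · intro g f hf
    simp only
    congr 1
    exact hinv g _ hf.cast

/-- Common denominators. -/
lemma exists_denominator {ι : Type u} {S : Set ι} (hS : S.Finite) (q : ι → ℚ) :
    ∃ m : ℤ, 0 < m ∧ ∀ i ∈ S, ∃ z : ℤ, (m : ℚ) * q i = z := by
  classical
  refine ⟨∏ i ∈ hS.toFinset, ((q i).den : ℤ), ?_, ?_⟩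
  · apply Finset.prod_pos
    intro i _
    exact_mod_cast (q i).den_pos
  · intro i hi
    have hi' : i ∈ hS.toFinset := by simpa using hi
    refine ⟨(∏ j ∈ hS.toFinset.erase i, ((q j).den : ℤ)) * (q i).num, ?_⟩
    rw [← Finset.mul_prod_erase _ _ hi']
    push_cast
    have h1 : ((q i).den : ℚ) * q i = (q i).num := by
      rw [mul_comm]
      exact_mod_cast Rat.mul_den_eq_num (q i)
    calc ((q i).den : ℚ) * (∏ j ∈ hS.toFinset.erase i, ((q j).den : ℚ)) * q i
        = (∏ j ∈ hS.toFinset.erase i, ((q j).den : ℚ)) * (((q i).den : ℚ) * q i) := by ring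
      _ = _ := by rw [h1]

end Functional

end Vale.Agent.P188
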