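import Vale.Agent.P188.Coarse

/-!
Polycyclic subgroups of a fixed ambient group, described by explicit cyclic steps.
-/

universe u v w

namespace Vale.Agent.P188

open Pointwise

section basics

variable {G : Type u} [Group G]

/-- If `t` normalises `U` then the elements `t ^ b * u` form a subgroup. -/
def adjoinCyc (U : Subgroup G) (t : G) (h1 : ∀ n ∈ U, t * n * t⁻¹ ∈ U)
    (h2 : ∀ n ∈ U, t⁻¹ * n * t ∈ U) : Subgroup G where
  carrier := {x | ∃ b : ℤ, (t ^ b)⁻¹ * x ∈ U}
  one_mem' := ⟨0, by simp⟩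
  mul_mem' := by
    rintro x y ⟨a, ha⟩ ⟨b, hb⟩
    refine ⟨a + b, ?_⟩
    have key : ∀ (b : ℤ) (n : G), n ∈ U → (t ^ b)⁻¹ * n * t ^ b ∈ U := by
      intro b
      induction b using Int.induction_on with
      | zero => intro n hn; simpa using hn
      | succ i ih =>
        intro n hn
        have := h2 _ (ih n hn)
        have e : (t ^ ((i : ℤ) + 1))⁻¹ * n * t ^ ((i : ℤ) + 1)
            = t⁻¹ * ((t ^ (i : ℤ))⁻¹ * n * t ^ (i : ℤ)) * t := by
          rw [zpow_add_one]; group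
        rw [e]; exact this
      | pred i ih =>
        intro n hn
        have := h1 _ (ih n hn)
        have e : (t ^ (-(i : ℤ) - 1))⁻¹ * n * t ^ (-(i : ℤ) - 1)
            = t * ((t ^ (-(i : ℤ)))⁻¹ * n * t ^ (-(i : ℤ))) * t⁻¹ := by
          rw [zpow_sub_one]; group
        rw [e]; exact this
    have e : (t ^ (a + b))⁻¹ * (x * y)
        = ((t ^ b)⁻¹ * ((t ^ a)⁻¹ * x) * t ^ b) * ((t ^ b)⁻¹ * y) := by
      rw [zpow_add]; group
    rw [e]
    exact U.mul_mem (key b _ ha) hb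
  inv_mem' := by
    rintro x ⟨a, ha⟩
    refine ⟨-a, ?_⟩
    have key : ∀ (b : ℤ) (n : G), n ∈ U → (t ^ b)⁻¹ * n * t ^ b ∈ U := by
      intro b
      induction b using Int.induction_on with
      | zero => intro n hn; simpa using hn
      | succ i ih =>
        intro n hn
        have := h2 _ (ih n hn)
        have e : (t ^ ((i : ℤ) + 1))⁻¹ * n * t ^ ((i : ℤ) + 1)
            = t⁻¹ * ((t ^ (i : ℤ))⁻¹ * n * t ^ (i : ℤ)) * t := by
          rw [zpow_add_one]; group
        rw [e]; exact this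
      | pred i ih =>
        intro n hn
        have := h1 _ (ih n hn)
        have e : (t ^ (-(i : ℤ) - 1))⁻¹ * n * t ^ (-(i : ℤ) - 1)
            = t * ((t ^ (-(i : ℤ)))⁻¹ * n * t ^ (-(i : ℤ))) * t⁻¹ := by
          rw [zpow_sub_one]; group
        rw [e]; exact this
    have h := key (-a) _ (U.inv_mem ha)
    have e : (t ^ (-a))⁻¹ * x⁻¹ = (t ^ (-a))⁻¹ * ((t ^ a)⁻¹ * x)⁻¹ * t ^ (-a) := by
      rw [zpow_neg]; group
    rw [e]; exact h

theorem mem_adjoinCyc {U : Subgroup G} {t : G} {h1 : ∀ n ∈ U, t * n * t⁻¹ ∈ U}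
    {h2 : ∀ n ∈ U, t⁻¹ * n * t ∈ U} {x : G} :
    x ∈ adjoinCyc U t h1 h2 ↔ ∃ b : ℤ, (t ^ b)⁻¹ * x ∈ U := Iff.rfl

theorem conj_zpow {U : Subgroup G} {t : G} (h1 : ∀ n ∈ U, t * n * t⁻¹ ∈ U)
    (h2 : ∀ n ∈ U, t⁻¹ * n * t ∈ U) (b : ℤ) (n : G) (hn : n ∈ U) :
    t ^ b * n * (t ^ b)⁻¹ ∈ U := by
  induction b using Int.induction_on generalizing n with
  | zero => simpa using hn
  | succ i ih =>
    have := h1 _ (ih n hn)
    have e : t ^ ((i : ℤ) + 1) * n * (t ^ ((i : ℤ) + 1))⁻¹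
        = t * (t ^ (i : ℤ) * n * (t ^ (i : ℤ))⁻¹) * t⁻¹ := by
      have : t ^ ((i : ℤ) + 1) = t * t ^ (i : ℤ) := by rw [add_comm, zpow_one_add]
      rw [this]; group
    rw [e]; exact this
  | pred i ih =>
    have := h2 _ (ih n hn)
    have e : t ^ (-(i : ℤ) - 1) * n * (t ^ (-(i : ℤ) - 1))⁻¹
        = t⁻¹ * (t ^ (-(i : ℤ)) * n * (t ^ (-(i : ℤ)))⁻¹) * t := by
      have : t ^ (-(i : ℤ) - 1) = t⁻¹ * t ^ (-(i : ℤ)) := by
        rw [sub_eq_add_neg, add_comm, zpow_add, zpow_neg_one]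
      rw [this]; group
    rw [e]; exact this

/-- `M` is obtained from its normal subgroup `N` by adding the element `t`. -/
structure CycStep (N M : Subgroup G) (t : G) : Prop where
  le : N ≤ M
  mem : t ∈ M
  conj : ∀ n ∈ N, t * n * t⁻¹ ∈ N
  conj' : ∀ n ∈ N, t⁻¹ * n * t ∈ N
  dec : ∀ g ∈ M, ∃ k : ℤ, (t ^ k)⁻¹ * g ∈ N

theorem CycStep.normal {N M : Subgroup G} {t : G} (h : CycStep N M t) {g n : G} (hg : g ∈ M)
    (hn : n ∈ N) : g * n * g⁻¹ ∈ N := by
  obtain ⟨k, hk⟩ := h.dec g hg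
  have e : g * n * g⁻¹ = t ^ k * (((t ^ k)⁻¹ * g) * n * ((t ^ k)⁻¹ * g)⁻¹) * (t ^ k)⁻¹ := by
    group
  rw [e]
  exact conj_zpow h.conj h.conj' k _ (N.mul_mem (N.mul_mem hk hn) (N.inv_mem hk))

/-- Polycyclic subgroups. -/
inductive PCS : Subgroup G → Prop
  | bot : PCS ⊥
  | step {N M : Subgroup G} {t : G} : PCS N → CycStep N M t → PCS M

theorem PCS.fg {M : Subgroup G} (h : PCS M) : M.FG := by
  induction h with
  | bot => exact ⟨∅, by simp⟩
  | @step N M t _ hs ih =>
    classical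
    obtain ⟨S, hS⟩ := ih
    refine ⟨insert t S, le_antisymm ?_ ?_⟩
    · rw [Subgroup.closure_le]
      intro x hx
      rcases Finset.mem_insert.1 (by exact_mod_cast hx) with rfl | hx
      · exact hs.mem
      · exact hs.le (hS ▸ Subgroup.subset_closure hx)
    · intro g hg
      obtain ⟨k, hk⟩ := hs.dec g hg
      have e : g = t ^ k * ((t ^ k)⁻¹ * g) := by group
      rw [e]
      refine Subgroup.mul_mem _ (Subgroup.zpow_mem _ (Subgroup.subset_closure (by simp)) _) ?_
      rw [← hS] at hk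
      exact Subgroup.closure_mono (by intro x hx; simp [Finset.mem_coe.1 hx]) hk

theorem PCS.map {G' : Type v} [Group G'] (f : G →* G') {M : Subgroup G} (h : PCS M) :
    PCS (M.map f) := by
  induction h with
  | bot => rw [Subgroup.map_bot]; exact .bot
  | @step N M t _ hs ih =>
    refine .step ih (t := f t) ⟨Subgroup.map_mono hs.le, Subgroup.mem_map_of_mem f hs.mem, ?_, ?_, ?_⟩
    · rintro _ ⟨n, hn, rfl⟩
      exact ⟨t * n * t⁻¹, hs.conj n hn, by simp⟩
    · rintro _ ⟨n, hn, rfl⟩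
      exact ⟨t⁻¹ * n * t, hs.conj' n hn, by simp⟩
    · rintro _ ⟨g, hg, rfl⟩
      obtain ⟨k, hk⟩ := hs.dec g hg
      exact ⟨k, ⟨_, hk, by simp⟩⟩

theorem PCS.comap_injective {G' : Type v} [Group G'] (f : G' →* G) (hf : Function.Injective f)
    {M : Subgroup G} (h : PCS M) : PCS (M.comap f) := by
  induction h with
  | bot =>
    have : (⊥ : Subgroup G).comap f = ⊥ := by
      rw [MonoidHom.comap_bot, (MonoidHom.ker_eq_bot_iff f).2 hf]
    rw [this]; exact .bot
  | @step N M t _ hs ih =>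
    let D : AddSubgroup ℤ :=
      { carrier := {k | ∃ g ∈ M.comap f, (t ^ k)⁻¹ * f g ∈ N}
        zero_mem' := ⟨1, one_mem _, by simp⟩
        add_mem' := by
          rintro a b ⟨g, hg, hga⟩ ⟨g', hg', hgb⟩
          refine ⟨g * g', mul_mem hg hg', ?_⟩
          have e : (t ^ (a + b))⁻¹ * f (g * g')
              = ((t ^ (-b)) * ((t ^ a)⁻¹ * f g) * (t ^ (-b))⁻¹) * ((t ^ b)⁻¹ * f g') := by
            rw [zpow_add, zpow_neg, map_mul]; group
          rw [e]
          exact N.mul_mem (conj_zpow hs.conj hs.conj' _ _ hga) hgb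
        neg_mem' := by
          rintro a ⟨g, hg, hga⟩
          refine ⟨g⁻¹, inv_mem hg, ?_⟩
          have e : (t ^ (-a))⁻¹ * f g⁻¹
              = t ^ a * ((t ^ a)⁻¹ * f g)⁻¹ * (t ^ a)⁻¹ := by
            rw [zpow_neg, map_inv]; group
          rw [e]
          exact conj_zpow hs.conj hs.conj' _ _ (N.inv_mem hga) }
    obtain ⟨d, hd⟩ := Int.subgroup_cyclic D
    obtain ⟨s, hsM, hsd⟩ : d ∈ D := by
      rw [hd]; exact AddSubgroup.subset_closure rfl
    refine .step ih (t := s) ⟨Subgroup.comap_mono hs.le, hsM, ?_, ?_, ?_⟩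
    · intro n hn
      have : f s * f n * (f s)⁻¹ ∈ N := hs.normal hsM hn
      simpa using this
    · intro n hn
      have : (f s)⁻¹ * f n * ((f s)⁻¹)⁻¹ ∈ N := hs.normal (M.inv_mem hsM) hn
      simpa using this
    · intro g hg
      obtain ⟨k, hk⟩ := hs.dec (f g) hg
      have hkD : k ∈ D := ⟨g, hg, hk⟩
      rw [hd, AddSubgroup.mem_closure_singleton] at hkD
      obtain ⟨c, rfl⟩ := hkD
      refine ⟨c, ?_⟩
      have h1 : (t ^ (c * d))⁻¹ * f s ^ c ∈ N := by
        have : ∀ c : ℤ, (t ^ (c * d))⁻¹ * f s ^ c ∈ N := by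
          intro c
          induction c using Int.induction_on with
          | zero => simp
          | succ i ih =>
            have e : (t ^ (((i : ℤ) + 1) * d))⁻¹ * f s ^ ((i : ℤ) + 1)
                = (t ^ (-d) * ((t ^ ((i : ℤ) * d))⁻¹ * f s ^ (i : ℤ)) * (t ^ (-d))⁻¹) *
                  ((t ^ d)⁻¹ * f s) := by
              rw [add_mul, one_mul, zpow_add, zpow_add_one, zpow_neg]; group
            rw [e]
            exact N.mul_mem (conj_zpow hs.conj hs.conj' _ _ ih) hsd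
          | pred i ih =>
            have e : (t ^ ((-(i : ℤ) - 1) * d))⁻¹ * f s ^ (-(i : ℤ) - 1)
                = (t ^ d * (((t ^ ((-(i : ℤ)) * d))⁻¹ * f s ^ (-(i : ℤ))) *
                  ((t ^ d)⁻¹ * f s)⁻¹) * (t ^ d)⁻¹) := by
              rw [sub_mul, one_mul, zpow_sub, zpow_sub_one]; group
            rw [e]
            exact conj_zpow hs.conj hs.conj' _ _ (N.mul_mem ih (N.inv_mem hsd))
        exact this c
      have e : f ((s ^ c)⁻¹ * g) = ((t ^ (c * d))⁻¹ * f s ^ c)⁻¹ * ((t ^ (c * d))⁻¹ * f g) := by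
        rw [map_mul, map_inv, map_zpow]; group
      show f ((s ^ c)⁻¹ * g) ∈ N
      rw [e]
      have h2 : (t ^ (c * d))⁻¹ * f g ∈ N := by simpa using hk
      exact N.mul_mem (N.inv_mem h1) h2

theorem PCS.le {M K : Subgroup G} (h : PCS M) (hK : K ≤ M) : PCS K := by
  have h1 := (h.comap_injective K.subtype K.subtype_injective).map K.subtype
  have : (M.comap K.subtype).map K.subtype = K := by
    ext x
    simp only [Subgroup.mem_map, Subgroup.mem_comap, Subgroup.coe_subtype, Subtype.exists,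
      exists_and_right, exists_eq_right]
    exact ⟨fun ⟨h, _⟩ => h, fun h => ⟨h, hK h⟩⟩
  rwa [this] at h1

theorem PCS.comap_surjective {G' : Type v} [Group G'] (f : G' →* G) (hf : Function.Surjective f)
    (hker : PCS f.ker) {M : Subgroup G} (h : PCS M) : PCS (M.comap f) := by
  induction h with
  | bot => rw [MonoidHom.comap_bot]; exact hker
  | @step N M t _ hs ih =>
    obtain ⟨s, rfl⟩ := hf t
    refine .step ih (t := s) ⟨Subgroup.comap_mono hs.le, hs.mem, ?_, ?_, ?_⟩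
    · intro n hn
      have := hs.conj (f n) hn
      simpa using this
    · intro n hn
      have := hs.conj' (f n) hn
      simpa using this
    · intro g hg
      obtain ⟨k, hk⟩ := hs.dec (f g) hg
      exact ⟨k, by simpa using hk⟩

end basics

end Vale.Agent.P188
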