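import Vale.Agent.P188.Poly

/-!
Polycyclic groups and polycyclic subgroups; finite index subgroups.
-/

universe u v w

namespace Vale.Agent.P188

variable {G : Type u} [Group G]

theorem IsPolycyclic.pcs (h : IsPolycyclic G) : PCS (⊤ : Subgroup G) := by
  obtain ⟨m, s, h0, hm, hs⟩ := h
  have key : ∀ i ≤ m, PCS (s i) := by
    intro i
    induction i with
    | zero => intro _; rw [h0]; exact .bot
    | succ i ih =>
      intro hi
      obtain ⟨hle, hn, hc⟩ := hs i (by omega)
      obtain ⟨q, hq⟩ := hc.exists_generator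
      obtain ⟨t, rfl⟩ := QuotientGroup.mk_surjective q
      refine .step (ih (by omega)) (t := (t : G)) ⟨hle, t.2, ?_, ?_, ?_⟩
      · intro n hn'
        have := hn.conj_mem ⟨n, hle hn'⟩ hn' t
        simpa [Subgroup.mem_subgroupOf] using this
      · intro n hn'
        have := hn.conj_mem ⟨n, hle hn'⟩ hn' t⁻¹
        simpa [Subgroup.mem_subgroupOf] using this
      · intro g hg
        obtain ⟨k, hk⟩ := Subgroup.mem_zpowers_iff.1 (hq (QuotientGroup.mk (⟨g, hg⟩ : s (i + 1))))
        refine ⟨k, ?_⟩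
        rw [← QuotientGroup.mk_zpow, QuotientGroup.eq] at hk
        simpa [Subgroup.mem_subgroupOf] using hk
  rw [← hm]; exact key m le_rfl

/-- one step of a polycyclic series -/
def CycQ (A B : Subgroup G) : Prop :=
  A ≤ B ∧ ∃ _ : (A.subgroupOf B).Normal, IsCyclic (B ⧸ A.subgroupOf B)

theorem CycStep.cycQ {N M : Subgroup G} {t : G} (hs : CycStep N M t) : CycQ N M := by
  have hn : (N.subgroupOf M).Normal := by
    constructor
    intro n hn g
    exact hs.normal g.2 hn
  refine ⟨hs.le, hn, ⟨⟨QuotientGroup.mk ⟨t, hs.mem⟩, ?_⟩⟩⟩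
  intro q
  obtain ⟨g, rfl⟩ := QuotientGroup.mk_surjective q
  obtain ⟨k, hk⟩ := hs.dec g g.2
  refine Subgroup.mem_zpowers_iff.2 ⟨k, ?_⟩
  rw [← QuotientGroup.mk_zpow, QuotientGroup.eq]
  simpa [Subgroup.mem_subgroupOf] using hk

theorem PCS.exists_series {M : Subgroup G} (h : PCS M) :
    ∃ (m : ℕ) (s : ℕ → Subgroup G), s 0 = ⊥ ∧ s m = M ∧
    ∀ i < m, CycQ (s i) (s (i + 1)) := by
  induction h with
  | bot => exact ⟨0, fun _ => ⊥, rfl, rfl, fun i hi => absurd hi (by omega)⟩
  | @step N M t _ hs ih =>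
    obtain ⟨m, s, h0, hm, hser⟩ := ih
    refine ⟨m + 1, fun i => if i ≤ m then s i else M, by simp [h0], by simp, ?_⟩
    intro i hi
    rcases Nat.lt_or_ge i m with h | h
    · have h1 : i ≤ m := h.le
      have h2 : i + 1 ≤ m := h
      have e1 : (if i ≤ m then s i else M) = s i := if_pos h1
      have e2 : (if i + 1 ≤ m then s (i + 1) else M) = s (i + 1) := if_pos h2
      simp only [e1, e2]
      exact hser i h
    · obtain rfl : i = m := by omega
      have h2 : ¬ (i + 1 ≤ i) := by omega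
      have e1 : (if i ≤ i then s i else M) = N := by rw [if_pos le_rfl, hm]
      have e2 : (if i + 1 ≤ i then s (i + 1) else M) = M := if_neg h2
      simp only [e1, e2]
      exact hs.cycQ

theorem isPolycyclic_iff : IsPolycyclic G ↔ PCS (⊤ : Subgroup G) :=
  ⟨fun h => h.pcs, fun h => h.exists_series⟩

theorem isPolycyclic_subgroup_iff {P : Subgroup G} : IsPolycyclic P ↔ PCS P := by
  rw [isPolycyclic_iff]
  constructor
  · intro h
    have := h.map P.subtype
    rwa [← MonoidHom.range_eq_map, Subgroup.range_subtype] at this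
  · intro h
    have := h.comap_injective P.subtype P.subtype_injective
    rwa [show P.comap P.subtype = ⊤ from Subgroup.subgroupOf_self P] at this

theorem isVirtuallyPolycyclic_iff :
    IsVirtuallyPolycyclic G ↔ ∃ P : Subgroup G, P.FiniteIndex ∧ PCS P := by
  simp only [IsVirtuallyPolycyclic, isPolycyclic_subgroup_iff]

/-- finite coset covers bound the index -/
theorem relIndex_ne_zero_of_cover {Q M : Subgroup G} {E : Set G} (hE : E.Finite)
    (h : ∀ g ∈ M, ∃ e ∈ E, e⁻¹ * g ∈ Q) : Q.relIndex M ≠ 0 := by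
  classical
  have : Finite E := hE
  have hfin : Finite (M ⧸ Q.subgroupOf M) := by
    have hc : ∀ q : M ⧸ Q.subgroupOf M, ∃ e : E, (e : G)⁻¹ * (q.out : G) ∈ Q := by
      intro q
      obtain ⟨e, he, h'⟩ := h q.out q.out.2
      exact ⟨⟨e, he⟩, h'⟩
    choose f hf using hc
    refine Finite.of_injective f ?_
    intro q q' hqq
    have h1 := hf q
    have h2 := hf q'
    rw [← hqq] at h2
    rw [← q.out_eq, ← q'.out_eq]
    refine QuotientGroup.eq.2 ?_
    rw [Subgroup.mem_subgroupOf]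
    have : (((q.out)⁻¹ * q'.out : M) : G) = ((f q : G)⁻¹ * (q.out : G))⁻¹ * ((f q : G)⁻¹ * (q'.out : G)) := by
      simp
    rw [this]
    exact Q.mul_mem (Q.inv_mem h1) h2
  rw [Subgroup.relIndex]
  exact Subgroup.index_ne_zero_of_finite

theorem exists_cover_of_relIndex_ne_zero {Q M : Subgroup G} (h : Q.relIndex M ≠ 0) :
    ∃ E : Set G, E.Finite ∧ E ⊆ M ∧ ∀ g ∈ M, ∃ e ∈ E, e⁻¹ * g ∈ Q := by
  rw [Subgroup.relIndex] at h
  have hfin : Finite (M ⧸ Q.subgroupOf M) := Nat.finite_of_card_ne_zero h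
  refine ⟨Set.range (fun q : M ⧸ Q.subgroupOf M => (q.out : G)), Set.finite_range _, ?_, ?_⟩
  · rintro _ ⟨q, rfl⟩; exact q.out.2
  · intro g hg
    refine ⟨_, ⟨(QuotientGroup.mk ⟨g, hg⟩ : M ⧸ Q.subgroupOf M), rfl⟩, ?_⟩
    have h1 : (QuotientGroup.mk (Quotient.out (QuotientGroup.mk ⟨g, hg⟩ : M ⧸ Q.subgroupOf M)) :
      M ⧸ Q.subgroupOf M) = QuotientGroup.mk ⟨g, hg⟩ := Quotient.out_eq' _
    rw [QuotientGroup.eq, Subgroup.mem_subgroupOf] at h1
    simpa using h1

/-- poly-`ℤ` subgroups -/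
inductive PZS : Subgroup G → Prop
  | bot : PZS ⊥
  | step {N M : Subgroup G} {t : G} : PZS N → CycStep N M t →
      (∀ k : ℤ, t ^ k ∈ N → k = 0) → PZS M

theorem PZS.pcs {M : Subgroup G} (h : PZS M) : PCS M := by
  induction h with
  | bot => exact .bot
  | step _ hs _ ih => exact .step ih hs

theorem finite_hom {P : Type*} [Group P] [Finite P] {N : Type*} [Group N] (h : Group.FG N) :
    Finite (N →* P) := by
  obtain ⟨S, hS⟩ := h.out
  refine Finite.of_injective (fun (f : N →* P) (s : (S : Set N)) => f s) ?_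
  intro f g hfg
  refine MonoidHom.eq_of_eqOn_dense hS ?_
  intro x hx
  exact congrFun hfg ⟨x, hx⟩

/-- For `Q` of finite index in the finitely generated group `N`, and an automorphism of `N`,
some positive power of the automorphism preserves `Q`. -/
theorem exists_pow_preserves {N : Type*} [Group N] (hN : Group.FG N) (Q : Subgroup N)
    (hQ : Q.FiniteIndex) (α : N ≃* N) : ∃ k : ℕ, 0 < k ∧ ∀ x, (α ^ k) x ∈ Q ↔ x ∈ Q := by
  classical
  have : Finite (N ⧸ Q) := inferInstance
  have : Finite (Equiv.Perm (N ⧸ Q)) := inferInstance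
  have := finite_hom (P := Equiv.Perm (N ⧸ Q)) hN
  let ρ : N →* Equiv.Perm (N ⧸ Q) := MulAction.toPermHom N (N ⧸ Q)
  have hρ : ∀ x, ρ x (QuotientGroup.mk 1) = QuotientGroup.mk 1 ↔ x ∈ Q := by
    intro x
    show (x • (QuotientGroup.mk 1 : N ⧸ Q)) = _ ↔ _
    rw [MulAction.Quotient.smul_mk, QuotientGroup.eq]
    simp
  obtain ⟨i, j, hij, he⟩ := Finite.exists_ne_map_eq_of_infinite
    (fun i : ℕ => ρ.comp ((α ^ i : N ≃* N) : N →* N))
  wlog hlt : i < j generalizing i j
  · exact this j i hij.symm he.symm (by omega)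
  refine ⟨j - i, by omega, ?_⟩
  intro x
  have h1 : ∀ y, (α ^ i) y ∈ Q ↔ (α ^ j) y ∈ Q := by
    intro y
    rw [← hρ, ← hρ]
    have := DFunLike.congr_fun he y
    simp only [MonoidHom.comp_apply, MonoidHom.coe_coe] at this
    rw [this]
  have h2 := h1 ((α ^ i)⁻¹ x)
  have h3 : (α ^ i) ((α ^ i)⁻¹ x) = x := by
    rw [← MulAut.mul_apply]; simp
  have h4 : (α ^ j) ((α ^ i)⁻¹ x) = (α ^ (j - i)) x := by
    rw [← MulAut.mul_apply]
    congr 1
    rw [← pow_sub _ hlt.le]
  rw [h3, h4] at h2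
  exact h2.symm

end Vale.Agent.P188
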