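import Vale.Agent.P188.Poly2

/-!
Polycyclic groups are virtually poly-`ℤ`.
-/

universe u v w

namespace Vale.Agent.P188

variable {G : Type u} [Group G]

theorem adjoinCyc_step (U : Subgroup G) (t : G) (h1 : ∀ n ∈ U, t * n * t⁻¹ ∈ U)
    (h2 : ∀ n ∈ U, t⁻¹ * n * t ∈ U) : CycStep U (adjoinCyc U t h1 h2) t :=
  ⟨fun x hx => ⟨0, by simpa using hx⟩, ⟨1, by simp⟩, h1, h2, fun _ hg => hg⟩

theorem PCS.exists_pzs {M : Subgroup G} (h : PCS M) :
    ∃ Q : Subgroup G, Q ≤ M ∧ PZS Q ∧ Q.relIndex M ≠ 0 := by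
  induction h with
  | bot => exact ⟨⊥, le_rfl, .bot, by simp⟩
  | @step N M t hN hs ih =>
    obtain ⟨Q, hQN, hQ, hind⟩ := ih
    obtain ⟨E, hE, hEN, hcov⟩ := exists_cover_of_relIndex_ne_zero hind
    by_cases hk : ∃ k : ℤ, k ≠ 0 ∧ t ^ k ∈ N
    · obtain ⟨k, hk0, hk⟩ := hk
      refine ⟨Q, hQN.trans hs.le, hQ, ?_⟩
      refine relIndex_ne_zero_of_cover
        (E := Set.image2 (fun (r : ℤ) (e : G) => t ^ r * e) (Set.Ico 0 |k|) E)
        (Set.Finite.image2 _ (Set.finite_Ico _ _) hE) ?_
      intro g hg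
      obtain ⟨b, hb⟩ := hs.dec g hg
      have hn : (t ^ (b % k))⁻¹ * g ∈ N := by
        have e : (t ^ (b % k))⁻¹ * g = (t ^ k) ^ (b / k) * ((t ^ b)⁻¹ * g) := by
          have : t ^ b = t ^ (b % k) * (t ^ k) ^ (b / k) := by
            rw [← zpow_mul, ← zpow_add, Int.emod_add_mul_ediv]
          rw [this]; group
        rw [e]
        exact N.mul_mem (N.zpow_mem hk _) hb
      obtain ⟨e, he, heq⟩ := hcov _ hn
      refine ⟨t ^ (b % k) * e, Set.mem_image2_of_mem ⟨Int.emod_nonneg _ hk0,
        Int.emod_lt_abs _ hk0⟩ he, ?_⟩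
      have : (t ^ (b % k) * e)⁻¹ * g = e⁻¹ * ((t ^ (b % k))⁻¹ * g) := by group
      rw [this]; exact heq
    · push Not at hk
      have hk' : ∀ k : ℤ, t ^ k ∈ N → k = 0 := fun k hkN => by
        by_contra h0
        exact hk k h0 hkN
      let α : N ≃* N :=
        { toFun := fun n => ⟨t⁻¹ * n * t, hs.conj' n n.2⟩
          invFun := fun n => ⟨t * n * t⁻¹, hs.conj n n.2⟩
          left_inv := fun n => Subtype.ext (by simp [mul_assoc])
          right_inv := fun n => Subtype.ext (by simp [mul_assoc])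
          map_mul' := fun n n' => Subtype.ext (by simp [mul_assoc]) }
      have hNfg : Group.FG N := (Group.fg_iff_subgroup_fg N).2 hN.fg
      have hQfi : (Q.subgroupOf N).FiniteIndex := ⟨hind⟩
      obtain ⟨k, hk0, hkp⟩ := exists_pow_preserves hNfg (Q.subgroupOf N) hQfi α
      have hα : ∀ (k : ℕ) (x : N), (((α ^ k) x : N) : G) = (t ^ k)⁻¹ * x * t ^ k := by
        intro k
        induction k with
        | zero => intro x; simp
        | succ k ihk =>
          intro x
          rw [pow_succ, MulAut.mul_apply, ihk]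
          show (t ^ k)⁻¹ * (t⁻¹ * x * t) * t ^ k = _
          have : t ^ (k + 1) = t * t ^ k := pow_succ' t k
          rw [this]; group
      have c2 : ∀ n ∈ Q, (t ^ k)⁻¹ * n * t ^ k ∈ Q := by
        intro n hn
        have := (hkp ⟨n, hQN hn⟩).2 hn
        rw [Subgroup.mem_subgroupOf, hα] at this
        exact this
      have c1 : ∀ n ∈ Q, t ^ k * n * (t ^ k)⁻¹ ∈ Q := by
        intro n hn
        have hmem : t ^ k * n * (t ^ k)⁻¹ ∈ N := by
          have := conj_zpow hs.conj hs.conj' (k : ℤ) n (hQN hn)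
          simpa using this
        have := (hkp ⟨_, hmem⟩).1 (by
          rw [Subgroup.mem_subgroupOf, hα]
          simpa [mul_assoc] using hn)
        exact this
      have hst := adjoinCyc_step Q (t ^ k) c1 c2
      refine ⟨adjoinCyc Q (t ^ k) c1 c2, ?_, .step hQ hst ?_, ?_⟩
      · rintro x ⟨b, hb⟩
        have : x = (t ^ k) ^ b * (((t ^ k) ^ b)⁻¹ * x) := by group
        rw [this]
        exact M.mul_mem (M.zpow_mem (M.pow_mem hs.mem _) _) (hs.le (hQN hb))
      · intro j hj
        have h1 : t ^ ((k : ℤ) * j) ∈ N := by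
          rw [zpow_mul, zpow_natCast]; exact hQN hj
        have := hk' _ h1
        rcases mul_eq_zero.1 this with h | h
        · omega
        · exact h
      · refine relIndex_ne_zero_of_cover
          (E := Set.image2 (fun (r : ℤ) (e : G) => t ^ r * e) (Set.Ico 0 |(k : ℤ)|) E)
          (Set.Finite.image2 _ (Set.finite_Ico _ _) hE) ?_
        intro g hg
        obtain ⟨b, hb⟩ := hs.dec g hg
        have hk0' : (k : ℤ) ≠ 0 := by omega
        have e1 : t ^ b = t ^ (b % (k : ℤ)) * (t ^ k) ^ (b / (k : ℤ)) := by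
          rw [← zpow_natCast t k, ← zpow_mul, ← zpow_add, Int.emod_add_mul_ediv]
        have hn : (t ^ k) ^ (b / (k : ℤ)) * ((t ^ b)⁻¹ * g) * ((t ^ k) ^ (b / (k : ℤ)))⁻¹ ∈ N := by
          have := conj_zpow hs.conj hs.conj' ((k : ℤ) * (b / (k : ℤ))) _ hb
          rwa [zpow_mul, zpow_natCast] at this
        obtain ⟨e, he, heq⟩ := hcov _ hn
        refine ⟨t ^ (b % (k : ℤ)) * e, Set.mem_image2_of_mem ⟨Int.emod_nonneg _ hk0',
          Int.emod_lt_abs _ hk0'⟩ he, ?_⟩
        have e2 : (t ^ (b % (k : ℤ)) * e)⁻¹ * g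
            = (e⁻¹ * ((t ^ k) ^ (b / (k : ℤ)) * ((t ^ b)⁻¹ * g) *
              ((t ^ k) ^ (b / (k : ℤ)))⁻¹)) * (t ^ k) ^ (b / (k : ℤ)) := by
          rw [e1]; group
        rw [e2]
        exact Subgroup.mul_mem _ (hst.le heq) (Subgroup.zpow_mem _ hst.mem _)

theorem PolyZ.of_equiv : ∀ (n : ℕ) {G : Type u} [Group G] {G' : Type u} [Group G'],
    (G ≃* G') → PolyZ n G → PolyZ n G'
  | 0, _, _, _, _, e, h => by
    have h' : Subsingleton _ := h
    exact (e.symm.injective.subsingleton : Subsingleton _)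
  | n + 1, G, _, G', _, e, h => by
    obtain ⟨φ, hφ, hk⟩ := h
    refine ⟨φ.comp e.symm.toMonoidHom, hφ.comp e.symm.surjective, ?_⟩
    refine PolyZ.of_equiv n ?_ hk
    refine e.subgroupMap φ.ker |>.trans (MulEquiv.subgroupCongr ?_)
    ext x
    simp only [Subgroup.mem_map, MonoidHom.mem_ker, MonoidHom.comp_apply]
    constructor
    · rintro ⟨y, hy, rfl⟩
      simpa using hy
    · intro hx
      exact ⟨e.symm x, hx, by simp⟩

theorem PZS.polyZ {M : Subgroup G} (h : PZS M) : ∃ n, PolyZ n M := by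
  induction h with
  | bot => exact ⟨0, (inferInstance : Subsingleton (⊥ : Subgroup G))⟩
  | @step N M t _ hs hinj ih =>
    obtain ⟨n, hn⟩ := ih
    refine ⟨n + 1, ?_⟩
    have huniq : ∀ (g : G) (a b : ℤ), (t ^ a)⁻¹ * g ∈ N → (t ^ b)⁻¹ * g ∈ N → a = b := by
      intro g a b ha hb
      have : t ^ (b - a) ∈ N := by
        have e : t ^ (b - a) = ((t ^ a)⁻¹ * g * ((t ^ b)⁻¹ * g)⁻¹) := by
          rw [sub_eq_neg_add, zpow_add, zpow_neg]; group
        rw [e]
        exact N.mul_mem ha (N.inv_mem hb)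
      have := hinj _ this
      omega
    choose f hf using hs.dec
    let φ : M →* Multiplicative ℤ :=
      { toFun := fun g => Multiplicative.ofAdd (f g g.2)
        map_one' := by
          show Multiplicative.ofAdd _ = Multiplicative.ofAdd (0 : ℤ)
          congr 1
          exact huniq _ _ _ (hf _ _) (by simp)
        map_mul' := by
          intro g g'
          rw [← ofAdd_add]
          congr 1
          refine huniq _ _ _ (hf _ _) ?_
          have h1 := hf g g.2
          have h2 := hf g' g'.2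
          have e : (t ^ (f g g.2 + f g' g'.2))⁻¹ * ((g * g' : M) : G)
              = (t ^ (-(f g' g'.2)) * ((t ^ (f g g.2))⁻¹ * g) * (t ^ (-(f g' g'.2)))⁻¹) *
                ((t ^ (f g' g'.2))⁻¹ * g') := by
            rw [zpow_add, zpow_neg, Subgroup.coe_mul]; group
          rw [e]
          exact N.mul_mem (conj_zpow hs.conj hs.conj' _ _ h1) h2 }
    refine ⟨φ, ?_, ?_⟩
    · intro k
      refine ⟨⟨t ^ (Multiplicative.toAdd k), M.zpow_mem hs.mem _⟩, ?_⟩
      show Multiplicative.ofAdd _ = k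
      rw [← ofAdd_toAdd k]
      congr 1
      exact huniq _ _ _ (hf _ _) (by simp)
    · refine PolyZ.of_equiv n ?_ hn
      have hker : φ.ker = N.subgroupOf M := by
        ext g
        rw [MonoidHom.mem_ker, Subgroup.mem_subgroupOf]
        constructor
        · intro hg
          have h0 : f g g.2 = 0 := hg
          have := hf g g.2
          rw [h0] at this
          simpa using this
        · intro hg
          show Multiplicative.ofAdd _ = Multiplicative.ofAdd (0 : ℤ)
          congr 1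
          exact huniq _ _ _ (hf _ _) (by simpa using hg)
      exact ((MulEquiv.subgroupCongr hker).trans (Subgroup.subgroupOfEquivOfLe hs.le)).symm

end Vale.Agent.P188
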