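import Vale.Agent.P188.Rank

/-!
Direct products of nontrivial subgroups in a group coarsely equivalent to a poly-`ℤ` group.
-/

universe u v w

namespace Vale.Agent.P188

section

variable {H : Type u} [Group H] {ι : Type w} [Fintype ι] [DecidableEq ι]

/-- Independent commuting elements of infinite order admit dual functions. -/
lemma exists_dual (a : ι → H) (hcomm : Pairwise fun i j => Commute (a i) (a j))
    (hind : iSupIndep (fun i => Subgroup.zpowers (a i))) (hinf : ∀ i, orderOf (a i) = 0) :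
    ∃ lam : ι → H → ℤ, ∀ i j, ∀ x, lam i (a j • x) = lam i x + if i = j then 1 else 0 := by
  classical
  let φ : ∀ _ : ι, Multiplicative ℤ →* H := fun i => zpowersHom H (a i)
  have hφ : ∀ i (z : Multiplicative ℤ), φ i z = a i ^ (Multiplicative.toAdd z) := fun i z => rfl
  have hc : Pairwise fun i j => ∀ (x y : Multiplicative ℤ), Commute (φ i x) (φ j y) := by
    intro i j hij x y
    rw [hφ, hφ]
    exact ((hcomm hij).zpow_zpow _ _)
  have hrange : ∀ i, (φ i).range = Subgroup.zpowers (a i) := by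
    intro i
    ext x
    constructor
    · rintro ⟨z, rfl⟩
      exact ⟨Multiplicative.toAdd z, rfl⟩
    · rintro ⟨z, rfl⟩
      exact ⟨Multiplicative.ofAdd z, rfl⟩
  have hinj : Function.Injective (MonoidHom.noncommPiCoprod φ hc) := by
    apply MonoidHom.injective_noncommPiCoprod_of_iSupIndep
    · simpa only [hrange] using hind
    · intro i x y hxy
      rw [hφ, hφ] at hxy
      have h0 : ¬ IsOfFinOrder (a i) := by
        rw [← orderOf_eq_zero_iff]
        exact hinf i
      have := injective_zpow_iff_not_isOfFinOrder.mpr h0 hxy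
      exact Multiplicative.toAdd.injective this
  set ψ := MonoidHom.noncommPiCoprod φ hc with hψ
  obtain ⟨D, hD, _⟩ := Subgroup.exists_isComplement_right ψ.range 1
  let E : ψ.range ≃* (ι → Multiplicative ℤ) := (MonoidHom.ofInjective hinj).symm
  refine ⟨fun i x => Multiplicative.toAdd (E (hD.equiv x).1 i), ?_⟩
  intro i j x
  have hj : a j = ((⟨ψ (Pi.mulSingle j (Multiplicative.ofAdd 1)), ⟨_, rfl⟩⟩ : ψ.range) : H) := by
    show a j = ψ (Pi.mulSingle j (Multiplicative.ofAdd 1))
    rw [hψ, MonoidHom.noncommPiCoprod_mulSingle, hφ, toAdd_ofAdd, zpow_one]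
  have hE : E ⟨ψ (Pi.mulSingle j (Multiplicative.ofAdd 1)), ⟨_, rfl⟩⟩ =
      Pi.mulSingle j (Multiplicative.ofAdd 1) := by
    rw [MulEquiv.symm_apply_eq]
    rfl
  have h1 : (hD.equiv (a j • x)).1 =
      ⟨ψ (Pi.mulSingle j (Multiplicative.ofAdd 1)), ⟨_, rfl⟩⟩ * (hD.equiv x).1 := by
    rw [smul_eq_mul]
    conv_lhs => rw [hj]
    rw [Subgroup.IsComplement.equiv_mul_left]
  simp only
  rw [h1, map_mul, hE, Pi.mul_apply, toAdd_mul, add_comm]
  congr 1
  rw [Pi.mulSingle_apply]
  split_ifs <;> rfl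

end

theorem card_le_of_infinite {H : Type u} {Z : Type v} [Group H] [Group Z] {n : ℕ}
    (hc : CoarseEquiv H Z) (hZ : PolyZ n Z) {ι : Type} [Fintype ι] (a : ι → H)
    (hcomm : Pairwise fun i j => Commute (a i) (a j))
    (hind : iSupIndep (fun i => Subgroup.zpowers (a i))) (hinf : ∀ i, orderOf (a i) = 0) :
    Fintype.card ι ≤ n := by
  classical
  by_contra hlt
  have hle : n + 1 ≤ Fintype.card ι := by omega
  let e : Fin (n + 1) → ι := fun i => (Fintype.equivFin ι).symm (Fin.castLE hle i)
  have he : Function.Injective e := fun i j hij => by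
    have := (Fintype.equivFin ι).symm.injective hij
    exact Fin.castLE_injective hle this
  obtain ⟨lam, hlam⟩ := exists_dual (fun i => a (e i)) (fun i j hij => hcomm (fun h => hij (he h)))
    (hind.comp he) (fun i => hinf (e i))
  refine rank_le hc hZ (List.ofFn (fun i : Fin (n + 1) => (a (e i), lam i))) ⟨?_, ?_⟩ (by simp)
  · rw [List.pairwise_ofFn]
    intro i j hij
    have hne : i ≠ j := ne_of_lt hij
    refine ⟨hcomm (fun h => hne (he h)), fun x => ?_, fun x => ?_⟩
    · simp only
      rw [hlam, if_neg hne, add_zero]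
    · simp only
      rw [hlam, if_neg hne.symm, add_zero]
  · intro p hp x
    rw [List.mem_ofFn] at hp
    obtain ⟨i, rfl⟩ := hp
    simp only
    rw [hlam, if_pos rfl]

theorem two_pow_le_of_finite {H : Type u} [Group H] {m : ℕ} (hm : 0 < m)
    (hdvd : ∀ F : Subgroup H, Finite F → Nat.card F ∣ m) {ι : Type} [Fintype ι] (a : ι → H)
    (hcomm : Pairwise fun i j => Commute (a i) (a j))
    (hind : iSupIndep (fun i => Subgroup.zpowers (a i))) (hfin : ∀ i, orderOf (a i) ≠ 0)
    (hne : ∀ i, a i ≠ 1) : 2 ^ Fintype.card ι ≤ m := by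
  classical
  have hc : Pairwise fun i j : ι => ∀ x y : H, x ∈ Subgroup.zpowers (a i) →
      y ∈ Subgroup.zpowers (a j) → Commute x y := by
    rintro i j hij _ _ ⟨z, rfl⟩ ⟨w, rfl⟩
    exact (hcomm hij).zpow_zpow z w
  have hinj := Subgroup.injective_noncommPiCoprod_of_iSupIndep (hcomm := hc) hind
  have hF : ∀ i, Finite (Subgroup.zpowers (a i)) := by
    intro i
    have h0 : IsOfFinOrder (a i) := orderOf_ne_zero_iff.mp (hfin i)
    exact (finite_zpowers.mpr h0).to_subtype
  have hcard : Nat.card (Subgroup.noncommPiCoprod hc).range = ∏ i, orderOf (a i) := by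
    rw [← Nat.card_congr (MonoidHom.ofInjective hinj).toEquiv, Nat.card_pi]
    exact Finset.prod_congr rfl (fun i _ => Nat.card_zpowers (a i))
  have hfinite : Finite (Subgroup.noncommPiCoprod hc).range :=
    Finite.of_equiv _ (MonoidHom.ofInjective hinj).toEquiv
  have h1 := hdvd _ hfinite
  rw [hcard] at h1
  refine le_trans ?_ (Nat.le_of_dvd hm h1)
  rw [← Finset.card_univ, ← Finset.prod_const]
  apply Finset.prod_le_prod'
  intro i _
  have h2 : orderOf (a i) ≠ 1 := by
    rw [Ne, orderOf_eq_one_iff]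
    exact hne i
  have h3 := hfin i
  omega

theorem product_bound {H : Type u} {Z : Type v} [Group H] [Group Z] {n : ℕ}
    (hc : CoarseEquiv H Z) (hZ : PolyZ n Z) :
    ∃ N : ℕ, ∀ (k : ℕ) (A : Fin k → Subgroup H), (∀ i, A i ≠ ⊥) →
      (∀ i j, i ≠ j → ∀ x ∈ A i, ∀ y ∈ A j, Commute x y) → iSupIndep A → k ≤ N := by
  classical
  obtain ⟨m, hm, hdvd⟩ := card_dvd_of_coarseEquiv hc hZ
  refine ⟨n + m, fun k A hA hcomm hind => ?_⟩
  have hex : ∀ i, ∃ x ∈ A i, x ≠ 1 := by
    intro i
    by_contra hcon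
    push Not at hcon
    exact hA i ((Subgroup.eq_bot_iff_forall _).mpr hcon)
  choose a ha ha1 using hex
  have hle : ∀ i, Subgroup.zpowers (a i) ≤ A i := fun i => by
    rw [Subgroup.zpowers_le]
    exact ha i
  have hcomm' : ∀ i j, i ≠ j → Commute (a i) (a j) := fun i j hij =>
    hcomm i j hij _ (ha i) _ (ha j)
  have hind' : iSupIndep (fun i => Subgroup.zpowers (a i)) := hind.mono hle
  have h1 : Fintype.card {i : Fin k // orderOf (a i) = 0} ≤ n :=
    card_le_of_infinite hc hZ (fun i : {i : Fin k // orderOf (a i) = 0} => a i)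
      (fun i j hij => hcomm' _ _ (fun h => hij (Subtype.ext h)))
      (hind'.comp Subtype.val_injective) (fun i => i.2)
  have h2 : 2 ^ Fintype.card {i : Fin k // ¬ orderOf (a i) = 0} ≤ m :=
    two_pow_le_of_finite hm hdvd (fun i : {i : Fin k // ¬ orderOf (a i) = 0} => a i)
      (fun i j hij => hcomm' _ _ (fun h => hij (Subtype.ext h)))
      (hind'.comp Subtype.val_injective) (fun i => i.2) (fun i => ha1 i)
  have h3 : Fintype.card {i : Fin k // ¬ orderOf (a i) = 0} < m :=
    lt_of_lt_of_le Nat.lt_two_pow_self h2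
  have h4 := Fintype.card_subtype_compl (fun i : Fin k => orderOf (a i) = 0)
  rw [Fintype.card_fin] at h4
  have h5 : Fintype.card {i : Fin k // orderOf (a i) = 0} ≤ k := by
    have := Fintype.card_subtype_le (fun i : Fin k => orderOf (a i) = 0)
    rwa [Fintype.card_fin] at this
  omega

end Vale.Agent.P188
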