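import Vale.Agent.P188.Coarse

/-!
Quasi-isometric groups are coarsely equivalent; coarse equivalence is an equivalence relation.
-/

universe u v w

namespace Vale.Agent.P188

open Pointwise

section WordDist

variable {H : Type u} [Group H]

lemma wordDist_list {S : Set H} (hS : Subgroup.closure S = ⊤) (x y : H) :
    ∃ l : List H, l.length = wordDist S x y ∧ (∀ a ∈ l, a ∈ S ∨ a⁻¹ ∈ S) ∧
      l.prod = x⁻¹ * y := by
  have hne : {n : ℕ | ∃ l : List H, l.length = n ∧ (∀ a ∈ l, a ∈ S ∨ a⁻¹ ∈ S) ∧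
      l.prod = x⁻¹ * y}.Nonempty := by
    have hmem : x⁻¹ * y ∈ (Subgroup.closure S).toSubmonoid := by rw [hS]; trivial
    rw [Subgroup.closure_toSubmonoid] at hmem
    obtain ⟨l, hl, hp⟩ := Submonoid.exists_list_of_mem_closure hmem
    exact ⟨l.length, l, rfl, fun a ha => hl a ha, hp⟩
  exact Nat.sInf_mem hne

lemma finite_ball {S : Set H} (hS : Subgroup.closure S = ⊤) (hfin : S.Finite) (n : ℕ) :
    ∃ B : Set H, B.Finite ∧ ∀ x y : H, wordDist S x y ≤ n → x⁻¹ * y ∈ B := by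
  have hU : (S ∪ S⁻¹).Finite := hfin.union hfin.inv
  have hL : {l : List H | (∀ a ∈ l, a ∈ S ∪ S⁻¹) ∧ l.length ≤ n}.Finite := by
    have : Finite ↥(S ∪ S⁻¹) := hU.to_subtype
    have h1 := List.finite_length_le (↥(S ∪ S⁻¹)) n
    refine (h1.image (fun l => l.map Subtype.val)).subset ?_
    rintro l ⟨hl, hn⟩
    refine ⟨l.pmap (fun a h => ⟨a, h⟩) hl, by simpa using hn, ?_⟩
    simp only
    rw [List.map_pmap]
    simp
  refine ⟨List.prod '' {l : List H | (∀ a ∈ l, a ∈ S ∪ S⁻¹) ∧ l.length ≤ n}, hL.image _, ?_⟩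
  intro x y hxy
  obtain ⟨l, hl, ha, hp⟩ := wordDist_list hS x y
  refine ⟨l, ⟨fun a h => ?_, by omega⟩, hp⟩
  rcases ha a h with h | h
  · exact Or.inl h
  · exact Or.inr h

lemma bounded_wordDist (S : Set H) {A : Set H} (hA : A.Finite) :
    ∃ n : ℕ, ∀ x y : H, x⁻¹ * y ∈ A → wordDist S x y ≤ n := by
  obtain ⟨M, hM⟩ := (hA.image (fun g => wordDist S 1 g)).bddAbove
  refine ⟨M, fun x y hxy => ?_⟩
  have : wordDist S x y = wordDist S 1 (x⁻¹ * y) := by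
    simp [wordDist]
  rw [this]
  exact hM ⟨_, hxy, rfl⟩

end WordDist

lemma Coarse.comp {H : Type u} {G : Type v} {K : Type w} [Group H] [Group G] [Group K]
    {F' : G → K} {F : H → G} (hF' : Coarse F') (hF : Coarse F) : Coarse (F' ∘ F) := by
  intro A hA
  obtain ⟨B, hB, hB'⟩ := hF A hA
  obtain ⟨C, hC, hC'⟩ := hF' B hB
  exact ⟨C, hC, fun x y hxy => hC' _ _ (hB' x y hxy)⟩

lemma CoarseEquiv.symm {H : Type u} {G : Type v} [Group H] [Group G] (h : CoarseEquiv H G) :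
    CoarseEquiv G H := by
  obtain ⟨F, F', h1, h2, h3, h4⟩ := h
  exact ⟨F', F, h2, h1, h4, h3⟩

lemma closeId_aux {H : Type u} {G : Type v} {K : Type w} [Group H] [Group G] [Group K]
    {F : H → G} {F' : G → H} (hF' : Coarse F') (hc : CloseId (F' ∘ F))
    {E : G → K} {E' : K → G} (hc' : CloseId (E' ∘ E)) :
    CloseId ((F' ∘ E') ∘ (E ∘ F)) := by
  obtain ⟨A, hA, hA'⟩ := hc
  obtain ⟨B, hB, hB'⟩ := hc'
  obtain ⟨C, hC, hC'⟩ := hF' B hB
  refine ⟨A * C, hA.mul hC, fun x => ?_⟩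
  refine ⟨x⁻¹ * F' (F x), hA' x, (F' (F x))⁻¹ * F' (E' (E (F x))), hC' _ _ (hB' (F x)), ?_⟩
  simp only [Function.comp_apply]
  group

lemma CoarseEquiv.trans {H : Type u} {G : Type v} {K : Type w} [Group H] [Group G] [Group K]
    (h : CoarseEquiv H G) (h' : CoarseEquiv G K) : CoarseEquiv H K := by
  obtain ⟨F, F', h1, h2, h3, h4⟩ := h
  obtain ⟨E, E', k1, k2, k3, k4⟩ := h'
  exact ⟨E ∘ F, F' ∘ E', k1.comp h1, h2.comp k2, closeId_aux h2 h3 k3, closeId_aux k1 k4 h4⟩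

theorem QuasiIsometric.coarseEquiv {H : Type u} {G : Type v} [Group H] [Group G]
    (h : QuasiIsometric H G) : CoarseEquiv H G := by
  obtain ⟨S, T, hS, hT, K, C, hK, hC, F, hF, hsurj⟩ := h
  have hKpos : 0 < K := lt_of_lt_of_le one_pos hK
  choose F' hF' using hsurj
  have cF : Coarse F := by
    intro A hA
    obtain ⟨n, hn⟩ := bounded_wordDist (S : Set H) hA
    obtain ⟨B, hB, hB'⟩ := finite_ball hT T.finite_toSet ⌈K * n + C⌉₊
    refine ⟨B, hB, fun x y hxy => hB' _ _ ?_⟩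
    have h1 := (hF x y).2
    have h2 : (wordDist (S : Set H) x y : ℝ) ≤ n := by exact_mod_cast hn x y hxy
    have h3 : (wordDist (T : Set G) (F x) (F y) : ℝ) ≤ K * n + C := by nlinarith
    exact_mod_cast h3.trans (Nat.le_ceil _)
  have key : ∀ M : ℝ, ∃ B : Set H, B.Finite ∧
      ∀ x y : H, (wordDist (T : Set G) (F x) (F y) : ℝ) ≤ M → x⁻¹ * y ∈ B := by
    intro M
    obtain ⟨B, hB, hB'⟩ := finite_ball hS S.finite_toSet ⌈K * (M + C)⌉₊
    refine ⟨B, hB, fun x y hxy => hB' _ _ ?_⟩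
    have h1 := (hF x y).1
    have h2 : K⁻¹ * (wordDist (S : Set H) x y : ℝ) ≤ M + C := by linarith
    have h3 : (wordDist (S : Set H) x y : ℝ) ≤ K * (M + C) := by
      have := mul_le_mul_of_nonneg_left h2 hKpos.le
      rwa [← mul_assoc, mul_inv_cancel₀ hKpos.ne', one_mul] at this
    exact_mod_cast h3.trans (Nat.le_ceil _)
  obtain ⟨E, hE, hE'⟩ := finite_ball hT T.finite_toSet ⌊C⌋₊
  have hEF : ∀ y : G, y⁻¹ * F (F' y) ∈ E := fun y => hE' _ _ (Nat.le_floor (hF' y))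
  refine ⟨F, F', cF, ?_, ?_, ⟨E, hE, hEF⟩⟩
  · intro B hB
    obtain ⟨n, hn⟩ := bounded_wordDist (T : Set G) ((hE.inv.mul hB).mul hE)
    obtain ⟨A, hA, hA'⟩ := key n
    refine ⟨A, hA, fun x y hxy => hA' _ _ ?_⟩
    have h1 : (F (F' x))⁻¹ * F (F' y) ∈ E⁻¹ * B * E := by
      refine ⟨(x⁻¹ * F (F' x))⁻¹ * (x⁻¹ * y), ⟨_, Set.inv_mem_inv.mpr (hEF x), _, hxy, rfl⟩,
        y⁻¹ * F (F' y), hEF y, ?_⟩
      simp only
      group
    exact_mod_cast hn _ _ h1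
  · obtain ⟨A, hA, hA'⟩ := key C
    exact ⟨A, hA, fun x => hA' _ _ (hF' (F x))⟩

end Vale.Agent.P188
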