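import Vale.Agent.P188.Main

/-!
The rank bound: independent commuting elements of infinite order in a group coarsely equivalent
to a poly-`ℤ` group of length `n` number at most `n`.
-/

universe u v w

namespace Vale.Agent.P188

open Finsupp

set_option linter.unusedSectionVars false

section Cup

variable {H : Type u} [Group H]

/-- The cup product of the coboundaries of some functions, as a function on lists. -/
def cup : List (H → ℤ) → List H → ℤ
  | [], [_] => 1
  | lam :: Lam, x :: y :: t => (lam y - lam x) * cup Lam (y :: t)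
  | _, _ => 0

lemma cup_nil_single (x : H) : cup [] [x] = 1 := by simp [cup]
lemma cup_nil_nil (Lam : List (H → ℤ)) : cup Lam ([] : List H) = 0 := by cases Lam <;> simp [cup]
lemma cup_nil_cons_cons (x y : H) (t : List H) : cup [] (x :: y :: t) = 0 := by simp [cup]
lemma cup_cons_single (lam : H → ℤ) (Lam : List (H → ℤ)) (x : H) : cup (lam :: Lam) [x] = 0 := by
  simp [cup]
lemma cup_cons_cons_cons (lam : H → ℤ) (Lam : List (H → ℤ)) (x y : H) (t : List H) :
    cup (lam :: Lam) (x :: y :: t) = (lam y - lam x) * cup Lam (y :: t) := by simp [cup]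

/-- The cochain of `cup`. -/
noncomputable def cc (Lam : List (H → ℤ)) : Ch H →ₗ[ℤ] ℤ := Finsupp.linearCombination ℤ (cup Lam)

@[simp] lemma cc_single (Lam : List (H → ℤ)) (l : List H) (a : ℤ) :
    cc Lam (single l a) = a * cup Lam l := by
  simp [cc, Finsupp.linearCombination_single]

lemma cc_nil_cns_cns (x y : H) (u : Ch H) : cc [] (cns x (cns y u)) = 0 := by
  have : (cc [] ∘ₗ cns x ∘ₗ cns y : Ch H →ₗ[ℤ] ℤ) = 0 := by
    apply lin_ext
    intro l
    simp [cup_nil_cons_cons]
  exact LinearMap.congr_fun this u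

lemma cc_cons_cns_cns (lam : H → ℤ) (Lam : List (H → ℤ)) (x y : H) (u : Ch H) :
    cc (lam :: Lam) (cns x (cns y u)) = (lam y - lam x) * cc Lam (cns y u) := by
  have : (cc (lam :: Lam) ∘ₗ cns x ∘ₗ cns y : Ch H →ₗ[ℤ] ℤ) =
      (lam y - lam x) • (cc Lam ∘ₗ cns y) := by
    apply lin_ext
    intro l
    simp [cup_cons_cons_cons]
  have := LinearMap.congr_fun this u
  simpa using this

lemma cc_dl (Lam : List (H → ℤ)) : ∀ l : List H, cc Lam (dl l) = 0 := by
  induction Lam with
  | nil =>
    intro l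
    rcases l with _ | ⟨x, _ | ⟨y, t⟩⟩
    · simp
    · simp [dl_cons, cup_nil_nil]
    · rcases t with _ | ⟨z, t⟩
      · simp [dl_cons, cup_nil_single]
      · rw [dl_cons, dl_cons, dl_cons]
        simp only [map_sub, cns_single, cc_single, cc_nil_cns_cns, cup_nil_cons_cons]
        ring
  | cons lam Lam ih =>
    intro l
    rcases l with _ | ⟨x, _ | ⟨y, t⟩⟩
    · simp
    · simp [dl_cons, cup_nil_nil]
    · rcases t with _ | ⟨z, t⟩
      · simp [dl_cons, cup_cons_single]
      · have h := ih (y :: z :: t)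
        rw [dl_cons, map_sub, cc_single, one_mul] at h
        rw [dl_cons, dl_cons]
        simp only [map_sub, cns_single, cc_single, cc_cons_cns_cns, cup_cons_cons_cons]
        have h' : cc Lam (cns y (dl (z :: t))) = cup Lam (z :: t) := by linarith
        rw [h']
        ring

lemma cc_bd (Lam : List (H → ℤ)) (u : Ch H) : cc Lam (bd u) = 0 := by
  have : (cc Lam ∘ₗ bd : Ch H →ₗ[ℤ] ℤ) = 0 := by
    apply lin_ext
    intro l
    simp [cc_dl]
  exact LinearMap.congr_fun this u

lemma cup_map {Lam : List (H → ℤ)} {b : H}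
    (h : ∀ lam ∈ Lam, ∃ e : ℤ, ∀ x, lam (b • x) = lam x + e) :
    ∀ l : List H, cup Lam (l.map (fun x => b • x)) = cup Lam l := by
  induction Lam with
  | nil =>
    intro l
    rcases l with _ | ⟨x, _ | ⟨y, t⟩⟩
    · rfl
    · simp [cup_nil_single]
    · simp [cup_nil_cons_cons]
  | cons lam Lam ih =>
    intro l
    rcases l with _ | ⟨x, _ | ⟨y, t⟩⟩
    · rfl
    · simp [cup_cons_single]
    · have ih' := ih (fun lam' hl => h lam' (List.mem_cons_of_mem _ hl)) (y :: t)
      obtain ⟨e, he⟩ := h lam (by simp)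
      rw [List.map_cons, List.map_cons, cup_cons_cons_cons, cup_cons_cons_cons, ← List.map_cons,
        ih', he, he]
      ring

lemma cc_act {Lam : List (H → ℤ)} {b : H}
    (h : ∀ lam ∈ Lam, ∃ e : ℤ, ∀ x, lam (b • x) = lam x + e) (u : Ch H) :
    cc Lam (act b u) = cc Lam u := by
  have : (cc Lam ∘ₗ act b : Ch H →ₗ[ℤ] ℤ) = cc Lam := by
    apply lin_ext
    intro l
    simp [-smul_eq_mul, act_single, cup_map h]
  exact LinearMap.congr_fun this u

lemma cc_prl_zero {Lam : List (H → ℤ)} {a : H} (h : ∀ lam ∈ Lam, ∀ x, lam (a • x) = lam x) :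
    ∀ l : List H, cc Lam (prl (fun x => a • x) l) = 0 := by
  induction Lam with
  | nil =>
    intro l
    rcases l with _ | ⟨x, _ | ⟨y, t⟩⟩
    · simp [prl]
    · simp [prl, cup_nil_cons_cons]
    · rw [prl_cons, prl_cons, ← cns_single, ← cns_single, ← map_sub, ← cns_single,
        map_sub (cns x), ← cns_single]
      simp only [map_sub, cc_nil_cns_cns]
      simp
  | cons lam Lam ih =>
    intro l
    have ih' := ih (fun lam' hl => h lam' (List.mem_cons_of_mem _ hl))
    have hlam := h lam (by simp)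
    rcases l with _ | ⟨x, _ | ⟨y, t⟩⟩
    · simp [prl]
    · simp [-smul_eq_mul, prl, cup_cons_cons_cons, hlam]
    · have h1 := ih' (y :: t)
      rw [prl_cons] at h1 ⊢
      have h2 : single (y :: (a • y) :: t.map (fun x => a • x)) (1 : ℤ) =
          cns y (single ((a • y) :: t.map (fun x => a • x)) 1) := by simp
      rw [prl_cons, h2, ← map_sub, map_sub (cc (lam :: Lam)), cc_cons_cns_cns, cc_single,
        cup_cons_cons_cons, hlam]
      rw [h2, ← map_sub] at h1
      rw [h1]
      ring

lemma cc_pr_zero {Lam : List (H → ℤ)} {a : H} (h : ∀ lam ∈ Lam, ∀ x, lam (a • x) = lam x)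
    (u : Ch H) : cc Lam (pr (fun x => a • x) u) = 0 := by
  have : (cc Lam ∘ₗ pr (fun x => a • x) : Ch H →ₗ[ℤ] ℤ) = 0 := by
    apply lin_ext
    intro l
    simp [-smul_eq_mul, cc_prl_zero h]
  exact LinearMap.congr_fun this u

lemma cc_prl {lam : H → ℤ} {Lam : List (H → ℤ)} {a : H}
    (h : ∀ lam ∈ Lam, ∀ x, lam (a • x) = lam x) (hlam : ∀ x, lam (a • x) = lam x + 1)
    (l : List H) : cc (lam :: Lam) (prl (fun x => a • x) l) = cup Lam l := by
  rcases l with _ | ⟨x, t⟩
  · simp [prl, cup_nil_nil]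
  · have h0 : cup Lam ((a • x) :: t.map (fun x => a • x)) = cup Lam (x :: t) := by
      rw [← cup_map (fun lam hl => ⟨0, fun x => by rw [h lam hl x, add_zero]⟩) (x :: t)]
      rfl
    rw [prl_cons, map_sub, cc_single, cup_cons_cons_cons, hlam, h0]
    rcases t with _ | ⟨y, t⟩
    · simp [prl]
    · have h1 := cc_prl_zero h (y :: t)
      have h2 : single (y :: (a • y) :: t.map (fun x => a • x)) (1 : ℤ) =
          cns y (single ((a • y) :: t.map (fun x => a • x)) 1) := by simp
      rw [prl_cons, h2, ← map_sub] at h1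
      rw [prl_cons, h2, ← map_sub, cc_cons_cns_cns, h1]
      ring

lemma cc_pr {lam : H → ℤ} {Lam : List (H → ℤ)} {a : H}
    (h : ∀ lam ∈ Lam, ∀ x, lam (a • x) = lam x) (hlam : ∀ x, lam (a • x) = lam x + 1)
    (u : Ch H) : cc (lam :: Lam) (pr (fun x => a • x) u) = cc Lam u := by
  have : (cc (lam :: Lam) ∘ₗ pr (fun x => a • x) : Ch H →ₗ[ℤ] ℤ) = cc Lam := by
    apply lin_ext
    intro l
    simp [-smul_eq_mul, cc_prl h hlam]
  exact LinearMap.congr_fun this u

lemma prl_act {a b : H} (hab : a * b = b * a) (l : List H) :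
    prl (fun x => a • x) (l.map (fun x => b • x)) = act b (prl (fun x => a • x) l) := by
  induction l with
  | nil => simp [prl]
  | cons x t ih =>
    have e : ∀ y : H, a • b • y = b • a • y := by
      intro y
      rw [← mul_smul, hab, mul_smul]
    rw [List.map_cons, prl_cons, prl_cons, ih, map_sub, act_cns, act_single]
    simp only [List.map_cons, List.map_map]
    congr 2
    rw [e]
    congr 3
    funext y
    exact e y

lemma pr_act {a b : H} (hab : a * b = b * a) (u : Ch H) :
    pr (fun x => a • x) (act b u) = act b (pr (fun x => a • x) u) := by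
  have : (pr (fun x => a • x) ∘ₗ act b : Ch H →ₗ[ℤ] Ch H) = act b ∘ₗ pr (fun x => a • x) := by
    apply lin_ext
    intro l
    simp [-smul_eq_mul, act_single, prl_act hab]
  exact LinearMap.congr_fun this u

/-- The relations `b • u = u` for `b` in a list. -/
noncomputable def Rel (L : List H) : Submodule ℤ (Ch H) :=
  Submodule.span ℤ {v | ∃ b ∈ L, ∃ u : Ch H, v = act b u - u}

lemma Rel_mono {L L' : List H} (h : L ⊆ L') : Rel L ≤ Rel L' :=
  Submodule.span_mono (fun _ ⟨b, hb, u, hv⟩ => ⟨b, h hb, u, hv⟩)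

lemma map_Rel {L : List H} {T : Ch H →ₗ[ℤ] Ch H} (h : ∀ b ∈ L, ∀ u, T (act b u) = act b (T u))
    {v : Ch H} (hv : v ∈ Rel L) : T v ∈ Rel L := by
  have : Rel L ≤ (Rel L).comap T := by
    apply Submodule.span_le.mpr
    rintro _ ⟨b, hb, u, rfl⟩
    show T (act b u - u) ∈ Rel L
    rw [map_sub, h b hb]
    exact Submodule.subset_span ⟨b, hb, T u, rfl⟩
  exact this hv

lemma cc_Rel {Lam : List (H → ℤ)} {L : List H}
    (h : ∀ b ∈ L, ∀ lam ∈ Lam, ∃ e : ℤ, ∀ x, lam (b • x) = lam x + e)
    {v : Ch H} (hv : v ∈ Rel L) : cc Lam v = 0 := by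
  have : Rel L ≤ LinearMap.ker (cc Lam) := by
    apply Submodule.span_le.mpr
    rintro _ ⟨b, hb, u, rfl⟩
    show cc Lam (act b u - u) = 0
    rw [map_sub, cc_act (h b hb), sub_self]
  exact this hv

/-- The torus chain. -/
noncomputable def tor : List H → Ch H
  | [] => single [1] 1
  | a :: L => pr (fun x => a • x) (tor L)

lemma tor_mem : ∀ L : List H, tor L ∈ Sp (Gr (L.length + 1))
  | [] => single_mem_Sp (by simp [Gr]) 1
  | a :: L => by
    apply pr_mem _ (tor_mem L)
    intro l hl l' _ h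
    rw [mem_Gr] at *
    simp [h, hl]

lemma bd_tor : ∀ (a : H) (L : List H), (a :: L).Pairwise (fun a b => a * b = b * a) →
    bd (tor (a :: L)) ∈ Rel (a :: L)
  | a, [], _ => by
    have h := bd_pr (fun x : H => a • x) (single [1] 1)
    have e : pr (fun x : H => a • x) (bd (single [1] 1)) = 0 := by
      simp [dl_cons, prl]
    rw [e, add_zero] at h
    show bd (pr (fun x : H => a • x) (single [1] 1)) ∈ _
    rw [h]
    exact Submodule.subset_span ⟨a, by simp, _, rfl⟩
  | a, b :: L, h => by
    have ih := bd_tor b L (List.pairwise_cons.mp h).2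
    have h1 := bd_pr (fun x : H => a • x) (tor (b :: L))
    have h2 : bd (pr (fun x : H => a • x) (tor (b :: L))) =
        (act a (tor (b :: L)) - tor (b :: L)) - pr (fun x : H => a • x) (bd (tor (b :: L))) := by
      rw [eq_sub_iff_add_eq]
      exact h1
    show bd (pr (fun x : H => a • x) (tor (b :: L))) ∈ _
    rw [h2]
    apply Submodule.sub_mem
    · exact Submodule.subset_span ⟨a, by simp, _, rfl⟩
    · apply Rel_mono (List.subset_cons_self a (b :: L))
      apply map_Rel _ ih
      intro c hc u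
      exact pr_act ((List.pairwise_cons.mp h).1 c hc) u

/-- Good lists: commuting elements with dual functions. -/
def Good (L : List (H × (H → ℤ))) : Prop :=
  L.Pairwise (fun p q => p.1 * q.1 = q.1 * p.1 ∧ (∀ x, p.2 (q.1 • x) = p.2 x) ∧
    (∀ x, q.2 (p.1 • x) = q.2 x)) ∧ ∀ p ∈ L, ∀ x, p.2 (p.1 • x) = p.2 x + 1

lemma cc_tor : ∀ L : List (H × (H → ℤ)), Good L → cc (L.map Prod.snd) (tor (L.map Prod.fst)) = 1
  | [], _ => by simp [tor, cup_nil_single]
  | p :: L, h => by
    have h1 := List.pairwise_cons.mp h.1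
    have ih := cc_tor L ⟨h1.2, fun q hq => h.2 q (List.mem_cons_of_mem _ hq)⟩
    rw [List.map_cons, List.map_cons]
    show cc (p.2 :: L.map Prod.snd) (pr (fun x => p.1 • x) (tor (L.map Prod.fst))) = 1
    rw [cc_pr _ (h.2 p (by simp)), ih]
    intro lam hl x
    rw [List.mem_map] at hl
    obtain ⟨q, hq, rfl⟩ := hl
    exact (h1.1 q hq).2.2 x

lemma Good.quasi {L : List (H × (H → ℤ))} (h : Good L) :
    ∀ b ∈ L.map Prod.fst, ∀ lam ∈ L.map Prod.snd, ∃ e : ℤ, ∀ x, lam (b • x) = lam x + e := by
  have key : ∀ p ∈ L, ∀ q ∈ L, ∃ e : ℤ, ∀ x, q.2 (p.1 • x) = q.2 x + e := by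
    intro p hp q hq
    by_cases hpq : p = q
    · subst hpq
      exact ⟨1, h.2 p hp⟩
    · refine ⟨0, fun x => ?_⟩
      rw [add_zero]
      have hsymm : Std.Symm (fun p q : H × (H → ℤ) => p.1 * q.1 = q.1 * p.1 ∧
          (∀ x, p.2 (q.1 • x) = p.2 x) ∧ (∀ x, q.2 (p.1 • x) = q.2 x)) :=
        ⟨fun a b hab => ⟨hab.1.symm, hab.2.2, hab.2.1⟩⟩
      have := List.Pairwise.forall h.1 hp hq hpq
      exact this.2.2 x
  intro b hb lam hlam
  rw [List.mem_map] at hb hlam
  obtain ⟨p, hp, rfl⟩ := hb
  obtain ⟨q, hq, rfl⟩ := hlam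
  exact key p hp q hq

end Cup

section Homotopy

variable {H : Type u} [Group H]

/-- Cone off a family of chains at the head of the list. -/
noncomputable def chd (w : List H → Ch H) : List H → Ch H
  | [] => 0
  | x :: t => cns x (w (x :: t))

/-- The homotopy between `s` and the identity, degree by degree. -/
noncomputable def kap (s : Ch H →ₗ[ℤ] Ch H) : ℕ → (Ch H →ₗ[ℤ] Ch H)
  | 0 => 0
  | q + 1 => Finsupp.linearCombination ℤ
      (chd (fun l => s (single l 1) - single l 1 - kap s q (dl l)))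

lemma kap_succ_single (s : Ch H →ₗ[ℤ] Ch H) (q : ℕ) (x : H) (t : List H) :
    kap s (q + 1) (single (x :: t) 1) =
      cns x (s (single (x :: t) 1) - single (x :: t) 1 - kap s q (dl (x :: t))) := by
  show Finsupp.linearCombination ℤ _ _ = _
  rw [Finsupp.linearCombination_single, one_smul]
  rfl

lemma kap_succ_single_nil (s : Ch H →ₗ[ℤ] Ch H) (q : ℕ) :
    kap s (q + 1) (single [] 1) = 0 := by
  show Finsupp.linearCombination ℤ _ _ = _
  rw [Finsupp.linearCombination_single, one_smul]
  rfl

lemma kap_act {s : Ch H →ₗ[ℤ] Ch H} (hs : ∀ (g : H) (u : Ch H), s (act g u) = act g (s u))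
    (q : ℕ) : ∀ (g : H) (u : Ch H), kap s q (act g u) = act g (kap s q u) := by
  induction q with
  | zero => intro g u; simp [kap]
  | succ q ih =>
    intro g u
    have : (kap s (q + 1) ∘ₗ act g : Ch H →ₗ[ℤ] Ch H) = act g ∘ₗ kap s (q + 1) := by
      apply lin_ext
      intro l
      rw [LinearMap.comp_apply, LinearMap.comp_apply]
      rcases l with _ | ⟨x, t⟩
      · rw [act_single, List.map_nil, kap_succ_single_nil, map_zero]
      · rw [act_single, List.map_cons, kap_succ_single, kap_succ_single, act_cns]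
        congr 1
        rw [map_sub, map_sub, ← hs, ← ih, act_single, List.map_cons]
        congr 2
        have := pf_dl (fun x => g • x) (x :: t)
        rw [List.map_cons] at this
        rw [← this]
        rfl
    exact LinearMap.congr_fun this u

lemma bd_kap {s : Ch H →ₗ[ℤ] Ch H} {Q : ℕ} (hs_nil : s (single [] 1) = single [] 1)
    (hs_bd : ∀ q ≤ Q, ∀ u ∈ Sp (Gr q : Set (List H)), bd (s u) = s (bd u)) :
    ∀ q ≤ Q, ∀ u ∈ Sp (Gr q : Set (List H)), bd (kap s q u) = s u - u - kap s (q - 1) (bd u) := by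
  intro q
  induction q with
  | zero =>
    intro _ u hu
    have := eq_of_Sp (L := s) (L' := LinearMap.id) (p := Gr 0) (u := u) (by
      intro l hl
      have : l = [] := List.length_eq_zero_iff.mp hl
      subst this
      simpa using hs_nil) hu
    rw [this, bd_of_Gr_zero hu]
    simp [kap]
  | succ q ih =>
    intro hq u hu
    have := eq_of_Sp (L := bd ∘ₗ kap s (q + 1)) (L' := s - LinearMap.id - kap s q ∘ₗ bd)
      (p := Gr (q + 1)) (u := u) (by
      intro l hl
      rcases l with _ | ⟨x, t⟩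
      · simp [Gr] at hl
      · have hdl : dl (x :: t) ∈ Sp (Gr q : Set (List H)) := by
          have := bd_mem_Gr (single_mem_Sp hl 1)
          simpa using this
        have e : bd (single (x :: t) (1 : ℤ)) = dl (x :: t) := by simp
        rw [LinearMap.comp_apply, kap_succ_single, bd_cns]
        have h1 : bd (s (single (x :: t) 1) - single (x :: t) 1 - kap s q (dl (x :: t))) = 0 := by
          rw [map_sub, map_sub, ih (by omega) _ hdl, hs_bd _ hq _ (single_mem_Sp hl 1), e, bd_dl,
            map_zero]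
          abel
        rw [h1, map_zero, sub_zero]
        simp) hu
    simpa using this

end Homotopy

theorem rank_le {H : Type u} {Z : Type v} [Group H] [Group Z] {n : ℕ}
    (hc : CoarseEquiv H Z) (hZ : PolyZ n Z) (L : List (H × (H → ℤ))) (hL : Good L) :
    L.length ≠ n + 1 := by
  intro hlen
  obtain ⟨m, s, Θ, hm, hs_eq, hs_nil, hs_mem, hs_bd, hΘ_eq, hΘ_mem, hΘ⟩ := exists_package hc hZ
  set c := cc (L.map Prod.snd) with hcdef
  set z := tor (L.map Prod.fst) with hzdef
  have hz : z ∈ Sp (Gr (n + 2)) := by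
    have := tor_mem (L.map Prod.fst)
    rw [List.length_map, hlen] at this
    exact this
  have hbz : bd z ∈ Rel (L.map Prod.fst) := by
    rcases L with _ | ⟨p, L⟩
    · simp at hlen
    · rw [hzdef, List.map_cons]
      apply bd_tor
      have := hL.1
      rw [← List.map_cons, List.pairwise_map]
      exact this.imp (fun h => h.1)
  have hbz' : bd z ∈ Sp (Gr (n + 1)) := bd_mem_Gr hz
  have hcz : c z = 1 := cc_tor L hL
  -- first: `c (s z) = c z`
  have h1 : c (s z) = 1 := by
    have h := bd_kap hs_nil hs_bd (n + 2) le_rfl z hz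
    have h2 : s z = bd (kap s (n + 2) z) + z + kap s (n + 2 - 1) (bd z) := by rw [h]; abel
    rw [h2, map_add, map_add, hcz, hcdef, cc_bd, cc_Rel hL.quasi, zero_add, add_zero]
    exact map_Rel (fun b _ u => kap_act hs_eq _ b u) hbz
  -- second: `m * c (s z) = 0`
  have h2 : m * c (s z) = 0 := by
    have hcyc : bd (m • s z - Θ (bd z)) = 0 := by
      rw [map_sub, map_smul, hΘ _ hbz' (bd_bd z), hs_bd _ le_rfl _ hz, sub_self]
    have h3 : m • s z - Θ (bd z) = bd (cns 1 (m • s z - Θ (bd z))) := by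
      rw [bd_cns, hcyc, map_zero, sub_zero]
    have h4 : c (m • s z - Θ (bd z)) = 0 := by rw [h3]; exact cc_bd _ _
    have h5 : c (Θ (bd z)) = 0 := cc_Rel hL.quasi (map_Rel (fun b _ u => hΘ_eq b u) hbz)
    rw [map_sub, map_smul, h5, sub_zero] at h4
    simpa using h4
  rw [h1, mul_one] at h2
  omega

end Vale.Agent.P188
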