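import Vale.Agent.P188.Poly3

/-!
Coarse equivalence with finite index subgroups.
-/

universe u v w

namespace Vale.Agent.P188

theorem coarseEquiv_of_finiteIndex {G : Type u} [Group G] (P : Subgroup G) (hP : P.FiniteIndex) :
    CoarseEquiv G P := by
  classical
  have hr : ∀ g : G, g * (Quotient.out (QuotientGroup.mk g⁻¹ : G ⧸ P)) ∈ P := by
    intro g
    have h1 : (QuotientGroup.mk (Quotient.out (QuotientGroup.mk g⁻¹ : G ⧸ P)) : G ⧸ P)
      = QuotientGroup.mk g⁻¹ := Quotient.out_eq' _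
    rw [QuotientGroup.eq] at h1
    have := P.inv_mem h1
    simpa using this
  let R : Set G := Set.range (fun q : G ⧸ P => q.out)
  have hR : R.Finite := Set.finite_range _
  let r : G → G := fun g => Quotient.out (QuotientGroup.mk g⁻¹ : G ⧸ P)
  have hrR : ∀ g, r g ∈ R := fun g => ⟨_, rfl⟩
  refine ⟨fun g => ⟨g * r g, hr g⟩, fun p => (p : G), ?_, ?_, ?_, ?_⟩
  · intro A hA
    have hfin : (Set.image2 (fun (a : G) (b : G × G) => b.1⁻¹ * a * b.2) A (R ×ˢ R)).Finite :=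
      Set.Finite.image2 _ hA (hR.prod hR)
    refine ⟨(fun p : P => (p : G)) ⁻¹' (Set.image2 (fun (a : G) (b : G × G) => b.1⁻¹ * a * b.2) A (R ×ˢ R)),
      hfin.preimage Subtype.val_injective.injOn, ?_⟩
    intro x y hxy
    refine ⟨x⁻¹ * y, hxy, (r x, r y), ⟨hrR x, hrR y⟩, ?_⟩
    simp [mul_assoc]
  · intro A hA
    refine ⟨(fun p : P => (p : G)) '' A, hA.image _, ?_⟩
    intro x y hxy
    exact ⟨_, hxy, by simp⟩
  · refine ⟨R, hR, ?_⟩
    intro x
    have : x⁻¹ * (x * r x) = r x := by group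
    show x⁻¹ * (x * r x) ∈ R
    rw [this]; exact hrR x
  · refine ⟨(fun p : P => (p : G)) ⁻¹' R, hR.preimage Subtype.val_injective.injOn, ?_⟩
    intro x
    show ((x⁻¹ * ⟨(x : G) * r x, hr x⟩ : P) : G) ∈ R
    have : ((x⁻¹ * ⟨(x : G) * r x, hr x⟩ : P) : G) = r x := by
      simp
    rw [this]; exact hrR _

/-- A virtually polycyclic group has a poly-`ℤ` subgroup of finite index. -/
theorem IsVirtuallyPolycyclic.exists_polyZ {G : Type u} [Group G] (h : IsVirtuallyPolycyclic G) :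
    ∃ Q : Subgroup G, Q.FiniteIndex ∧ ∃ n, PolyZ n Q := by
  obtain ⟨P, hP, hP'⟩ := isVirtuallyPolycyclic_iff.1 h
  obtain ⟨Q, hQP, hQ, hind⟩ := hP'.exists_pzs
  refine ⟨Q, ⟨?_⟩, hQ.polyZ⟩
  rw [← Subgroup.relIndex_mul_index hQP]
  exact mul_ne_zero hind hP.index_ne_zero

/-- A virtually polycyclic group is coarsely equivalent to a poly-`ℤ` group. -/
theorem IsVirtuallyPolycyclic.exists_coarseEquiv {G : Type u} [Group G]
    (h : IsVirtuallyPolycyclic G) :
    ∃ (n : ℕ) (Z : Type u) (_ : Group Z), PolyZ n Z ∧ CoarseEquiv G Z := by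
  obtain ⟨Q, hQ, n, hn⟩ := h.exists_polyZ
  exact ⟨n, Q, inferInstance, hn, coarseEquiv_of_finiteIndex Q hQ⟩

end Vale.Agent.P188
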