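import Vale.Agent.P188.Chains

/-!
Supports of chains, controlled chains.
-/

universe u v w

namespace Vale.Agent.P188

open Finsupp Pointwise

variable {X : Type u} {Y : Type v} {Z : Type w}

/-- Chains supported on lists in `p`. -/
noncomputable def Sp (p : Set (List X)) : Submodule ℤ (Ch X) := Finsupp.supported ℤ ℤ p

lemma mem_Sp {p : Set (List X)} {u : Ch X} : u ∈ Sp p ↔ ∀ l, u l ≠ 0 → l ∈ p := by
  unfold Sp
  rw [Finsupp.mem_supported]
  constructor
  · intro h l hl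
    exact h (by simpa using hl)
  · intro h l hl
    exact h l (by simpa using hl)

lemma single_mem_Sp {p : Set (List X)} {l : List X} (hl : l ∈ p) (a : ℤ) :
    single l a ∈ Sp p := by
  rw [mem_Sp]
  intro l' h
  by_cases hh : l = l'
  · rwa [← hh]
  · exact absurd (Finsupp.single_eq_of_ne (Ne.symm hh)) h

lemma Sp_mono {p q : Set (List X)} (h : p ⊆ q) {u : Ch X} (hu : u ∈ Sp p) : u ∈ Sp q := by
  rw [mem_Sp] at *
  exact fun l hl => h (hu l hl)

lemma Sp_inter {p q : Set (List X)} {u : Ch X} (hp : u ∈ Sp p) (hq : u ∈ Sp q) :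
    u ∈ Sp (p ∩ q) := by
  rw [mem_Sp] at *
  exact fun l hl => ⟨hp l hl, hq l hl⟩

/-- A linear map sends chains supported on `p` into `S` if it does so for lists in `p`. -/
lemma map_mem_of_Sp {M : Type*} [AddCommGroup M] {L : Ch X →ₗ[ℤ] M} {S : Submodule ℤ M}
    {p : Set (List X)} (h : ∀ l ∈ p, L (single l 1) ∈ S) {u : Ch X} (hu : u ∈ Sp p) :
    L u ∈ S := by
  rw [mem_Sp] at hu
  rw [← Finsupp.sum_single u, Finsupp.sum, map_sum]
  apply Submodule.sum_mem
  intro l hl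
  have : single l (u l) = (u l) • single l (1 : ℤ) := by simp
  rw [this, map_smul]
  exact Submodule.smul_mem _ _ (h l (hu l (by simpa using hl)))

/-- Two linear maps agree on chains supported on `p` if they agree on lists in `p`. -/
lemma eq_of_Sp {M : Type*} [AddCommGroup M] {L L' : Ch X →ₗ[ℤ] M}
    {p : Set (List X)} (h : ∀ l ∈ p, L (single l 1) = L' (single l 1)) {u : Ch X}
    (hu : u ∈ Sp p) : L u = L' u := by
  have : (L - L') u ∈ (⊥ : Submodule ℤ M) := by
    apply map_mem_of_Sp (p := p) _ hu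
    intro l hl
    simp [h l hl]
  simpa [sub_eq_zero] using this

/-- Lists of length `q`. -/
def Gr (q : ℕ) : Set (List X) := {l | l.length = q}

lemma mem_Gr {q : ℕ} {l : List X} : l ∈ Gr q ↔ l.length = q := Iff.rfl

/-- Lists with entries in `E`. -/
def On (E : Set X) : Set (List X) := {l | ∀ x ∈ l, x ∈ E}

/-- A set of lists closed under passing to lists with fewer entries. -/
def SubC (p : Set (List X)) : Prop := ∀ l ∈ p, ∀ l' : List X, l' ⊆ l → l' ∈ p

lemma SubC_On (E : Set X) : SubC (On E) := fun _ hl _ hs x hx => hl x (hs hx)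

lemma SubC.inter {p q : Set (List X)} (hp : SubC p) (hq : SubC q) : SubC (p ∩ q) :=
  fun l hl l' hs => ⟨hp l hl.1 l' hs, hq l hl.2 l' hs⟩

lemma cns_mem {p q : Set (List X)} {x : X} (h : ∀ l ∈ p, x :: l ∈ q) {u : Ch X}
    (hu : u ∈ Sp p) : cns x u ∈ Sp q := by
  apply map_mem_of_Sp _ hu
  intro l hl
  rw [cns_single]
  exact single_mem_Sp (h l hl) _

lemma pf_mem {f : X → Y} {p : Set (List X)} {q : Set (List Y)} (h : ∀ l ∈ p, l.map f ∈ q)
    {u : Ch X} (hu : u ∈ Sp p) : pf f u ∈ Sp q := by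
  apply map_mem_of_Sp _ hu
  intro l hl
  rw [pf_single]
  exact single_mem_Sp (h l hl) _

lemma dl_mem (l : List X) : dl l ∈ Sp {l' | l' ⊆ l ∧ l'.length + 1 = l.length} := by
  induction l with
  | nil => simp
  | cons x t ih =>
    rw [dl_cons]
    apply Submodule.sub_mem
    · apply single_mem_Sp
      exact ⟨List.subset_cons_self x t, by simp⟩
    · apply cns_mem _ ih
      rintro l ⟨hl, hl'⟩
      refine ⟨List.cons_subset_cons x hl, by simp [hl']⟩

lemma bd_mem {p : Set (List X)} (hp : SubC p) {q : ℕ} {u : Ch X}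
    (hu : u ∈ Sp (p ∩ Gr (q + 1))) : bd u ∈ Sp (p ∩ Gr q) := by
  apply map_mem_of_Sp _ hu
  rintro l ⟨hl, hl'⟩
  rw [bd_single, one_smul]
  apply Sp_mono _ (dl_mem l)
  rintro l' ⟨h1, h2⟩
  refine ⟨hp l hl l' h1, ?_⟩
  simp only [mem_Gr] at *
  omega

lemma bd_mem_Gr {q : ℕ} {u : Ch X} (hu : u ∈ Sp (Gr (q + 1))) :
    bd u ∈ Sp (Gr q) := by
  have h := bd_mem (p := Set.univ) (fun _ _ _ _ => trivial) (q := q) (u := u)
    (Sp_mono (Set.subset_inter (Set.subset_univ _) subset_rfl) hu)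
  exact Sp_mono Set.inter_subset_right h

lemma bd_of_Gr_zero {u : Ch X} (hu : u ∈ Sp (Gr 0)) : bd u = 0 := by
  have := eq_of_Sp (L := bd) (L' := 0) (p := Gr 0) (u := u) (by
    intro l hl
    have : l = [] := List.length_eq_zero_iff.mp hl
    subst this
    simp) hu
  simpa using this

lemma prl_mem (f : X → X) (l : List X) :
    prl f l ∈ Sp {l' | l' ⊆ l ++ l.map f ∧ l'.length = l.length + 1} := by
  induction l with
  | nil => simp [prl]
  | cons x t ih =>
    rw [prl_cons]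
    apply Submodule.sub_mem
    · apply single_mem_Sp
      refine ⟨?_, by simp⟩
      intro y hy
      simp at hy ⊢
      tauto
    · apply cns_mem _ ih
      rintro l ⟨hl, hl'⟩
      refine ⟨?_, by simp [hl']⟩
      intro y hy
      rcases List.mem_cons.mp hy with h | h
      · simp [h]
      · have := hl h
        simp at this ⊢
        tauto

lemma pr_mem {f : X → X} {p q : Set (List X)}
    (h : ∀ l ∈ p, ∀ l' : List X, l' ⊆ l ++ l.map f → l'.length = l.length + 1 → l' ∈ q)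
    {u : Ch X} (hu : u ∈ Sp p) : pr f u ∈ Sp q := by
  apply map_mem_of_Sp _ hu
  intro l hl
  rw [pr_single, one_smul]
  exact Sp_mono (fun l' hl' => h l hl l' hl'.1 hl'.2) (prl_mem f l)

section Group

variable {G : Type u} [Group G]

/-- Lists controlled by `A`: all `x⁻¹ * y` lie in `A`. -/
def Ctl (A : Set G) : Set (List G) := {l | ∀ x ∈ l, ∀ y ∈ l, x⁻¹ * y ∈ A}

lemma SubC_Ctl (A : Set G) : SubC (Ctl A) :=
  fun _ hl _ hs x hx y hy => hl x (hs hx) y (hs hy)

lemma Ctl_mono {A B : Set G} (h : A ⊆ B) : Ctl A ⊆ Ctl B :=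
  fun _ hl x hx y hy => h (hl x hx y hy)

lemma Ctl_map_mul {A : Set G} {l : List G} (g : G) (h : l ∈ Ctl A) :
    l.map (fun x => g * x) ∈ Ctl A := by
  intro x hx y hy
  rw [List.mem_map] at hx hy
  obtain ⟨x', hx', rfl⟩ := hx
  obtain ⟨y', hy', rfl⟩ := hy
  have : (g * x')⁻¹ * (g * y') = x'⁻¹ * y' := by group
  rw [this]
  exact h x' hx' y' hy'

/-- Uniform acyclicity: controlled cycles bound controlled chains. -/
def UA (G : Type u) [Group G] : Prop :=
  ∀ (q : ℕ) (A : Set G), A.Finite → ∃ B : Set G, B.Finite ∧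
    ∀ u ∈ Sp (Ctl A ∩ Gr q), bd u = 0 → ∃ w ∈ Sp (Ctl B ∩ Gr (q + 1)), bd w = u

lemma UA_of_subsingleton [Subsingleton G] : UA G := by
  intro q A _
  refine ⟨Set.univ, Set.finite_univ, ?_⟩
  intro u hu hbd
  refine ⟨cns 1 u, ?_, ?_⟩
  · apply cns_mem _ hu
    rintro l ⟨_, hl⟩
    refine ⟨fun x _ y _ => trivial, ?_⟩
    simp only [mem_Gr] at *
    simp [hl]
  · rw [bd_cns, hbd]; simp

/-- The control set of the prism of a map which is `E`-close to the identity on the lists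
considered. -/
def prCtl (A E : Set G) : Set G := (A ∪ A * E) ∪ (E⁻¹ * A ∪ E⁻¹ * A * E)

lemma prCtl_finite {A E : Set G} (hA : A.Finite) (hE : E.Finite) : (prCtl A E).Finite :=
  (hA.union (hA.mul hE)).union ((hE.inv.mul hA).union ((hE.inv.mul hA).mul hE))

lemma prCtl_spec {A E : Set G} {f : G → G} {l l' : List G} (hl : l ∈ Ctl A)
    (hf : ∀ x ∈ l, x⁻¹ * f x ∈ E) (hl' : l' ⊆ l ++ l.map f) : l' ∈ Ctl (prCtl A E) := by
  have key : ∀ x ∈ l', ∃ x₀ ∈ l, x = x₀ ∨ x = f x₀ := by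
    intro x hx
    have := hl' hx
    rw [List.mem_append, List.mem_map] at this
    rcases this with h | ⟨x₀, h, rfl⟩
    · exact ⟨x, h, Or.inl rfl⟩
    · exact ⟨x₀, h, Or.inr rfl⟩
  intro x hx y hy
  obtain ⟨x₀, hx₀, hxx⟩ := key x hx
  obtain ⟨y₀, hy₀, hyy⟩ := key y hy
  have hA := hl x₀ hx₀ y₀ hy₀
  rcases hxx with rfl | rfl <;> rcases hyy with rfl | rfl
  · exact Or.inl (Or.inl hA)
  · refine Or.inl (Or.inr ⟨_, hA, _, hf y₀ hy₀, ?_⟩)
    simp only
    group
  · refine Or.inr (Or.inl ⟨_, Set.inv_mem_inv.mpr (hf x₀ hx₀), _, hA, ?_⟩)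
    simp only
    group
  · refine Or.inr (Or.inr ⟨_, ⟨_, Set.inv_mem_inv.mpr (hf x₀ hx₀), _, hA, rfl⟩, _,
      hf y₀ hy₀, ?_⟩)
    simp only
    group

end Group

/-- Uniform acyclicity is inherited by coarse retracts. -/
lemma UA_of_coarse {H : Type u} {G : Type v} [Group H] [Group G] {F : H → G} {F' : G → H}
    (hF : Coarse F) (hF' : Coarse F') (hE : CloseId (F' ∘ F)) (hG : UA G) : UA H := by
  intro q A hA
  obtain ⟨B₁, hB₁, h₁⟩ := hF A hA
  obtain ⟨B₂, hB₂, h₂⟩ := hG q B₁ hB₁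
  obtain ⟨B₃, hB₃, h₃⟩ := hF' B₂ hB₂
  obtain ⟨E, hE, hE'⟩ := hE
  refine ⟨B₃ ∪ prCtl A E, hB₃.union (prCtl_finite hA hE), ?_⟩
  intro u hu hbd
  obtain ⟨w, hw, hbw⟩ := h₂ (pf F u) (by
    apply pf_mem _ hu
    rintro l ⟨hl, hl'⟩
    refine ⟨?_, by simpa [Gr] using hl'⟩
    intro x hx y hy
    rw [List.mem_map] at hx hy
    obtain ⟨x', hx', rfl⟩ := hx
    obtain ⟨y', hy', rfl⟩ := hy
    exact h₁ _ _ (hl x' hx' y' hy')) (by rw [bd_pf, hbd]; simp)
  refine ⟨pf F' w - pr (F' ∘ F) u, ?_, ?_⟩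
  · apply Submodule.sub_mem
    · apply pf_mem _ hw
      rintro l ⟨hl, hl'⟩
      refine ⟨?_, by simpa [Gr] using hl'⟩
      intro x hx y hy
      rw [List.mem_map] at hx hy
      obtain ⟨x', hx', rfl⟩ := hx
      obtain ⟨y', hy', rfl⟩ := hy
      exact Or.inl (h₃ _ _ (hl x' hx' y' hy'))
    · apply pr_mem _ hu
      rintro l ⟨hl, hl'⟩ l' h1 h2
      refine ⟨Ctl_mono Set.subset_union_right
        (prCtl_spec hl (fun x _ => hE' x) h1), ?_⟩
      simp only [mem_Gr] at *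
      omega
  · have h := bd_pr (F' ∘ F) u
    rw [hbd, map_zero, add_zero] at h
    rw [map_sub, h, bd_pf, hbw, pf_comp]
    abel

end Vale.Agent.P188
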