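import Vale.Agent.P188.Slab

/-!
Vanishing of cohomology above the length, for poly-`ℤ` groups, and the resulting
equivariant top contraction.
-/

universe u v w

namespace Vale.Agent.P188

open Finsupp

section Act

variable {G : Type u} [Group G] {X : Type v} [MulAction G X]

/-- The action on chains. -/
noncomputable def act (g : G) : Ch X →ₗ[ℤ] Ch X := pf (fun x => g • x)

lemma act_mul (g h : G) (u : Ch X) : act (g * h) u = act g (act h u) := by
  rw [act, act, act, pf_comp]
  congr 2
  funext x
  exact mul_smul g h x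

lemma act_one (u : Ch X) : act (1 : G) u = u := by
  rw [act]
  have : (fun x : X => (1 : G) • x) = fun x => x := by funext x; exact one_smul G x
  rw [this, pf_id]

lemma bd_act (g : G) (u : Ch X) : bd (act g u) = act g (bd u) := bd_pf _ _

lemma act_cns (g : G) (x : X) (u : Ch X) : act g (cns x u) = cns (g • x) (act g u) :=
  pf_cns _ _ _

lemma act_single (g : G) (l : List X) (a : ℤ) :
    act g (single l a) = single (l.map (fun x => g • x)) a := pf_single _ _ _

lemma act_mem_Gr (g : G) {q : ℕ} {u : Ch X} (hu : u ∈ Sp (Gr q)) : act g u ∈ Sp (Gr q) :=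
  pf_mem (fun l hl => by simpa [Gr] using hl) hu

end Act

/-- Vanishing of the cohomology of `G` on lists of length `m`, with all coefficients. -/
def Van (G : Type u) [Group G] (m : ℕ) : Prop :=
  ∀ (X : Type u) [MulAction G X] [Nonempty X], (∀ (g : G) (x : X), g • x = x → g = 1) →
    ∀ (M : Type u) [AddCommGroup M] [DistribMulAction G M] (c : Ch X →ₗ[ℤ] M),
      (∀ (g : G) (u : Ch X), c (act g u) = g • c u) →
      (∀ u ∈ Sp (Gr (m + 1) : Set (List X)), c (bd u) = 0) →
      ∃ b : Ch X →ₗ[ℤ] M, (∀ (g : G) (u : Ch X), b (act g u) = g • b u) ∧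
        ∀ u ∈ Sp (Gr m : Set (List X)), b (bd u) = c u

lemma Van_of_subsingleton (G : Type u) [Group G] [Subsingleton G] (m : ℕ) : Van G m := by
  intro X _ hX _ M _ _ c _ hc
  obtain ⟨x₀⟩ := hX
  refine ⟨c ∘ₗ cns x₀, ?_, ?_⟩
  · intro g u
    have : g = 1 := Subsingleton.elim _ _
    subst this
    rw [act_one, one_smul]
  · intro u hu
    have h1 : bd (cns x₀ u) = u - cns x₀ (bd u) := bd_cns x₀ u
    have h2 : cns x₀ (bd u) = u - bd (cns x₀ u) := by rw [h1]; abel
    have h3 : c (bd (cns x₀ u)) = 0 := hc _ (cns_mem (fun l hl => by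
      simp only [mem_Gr] at *; simp [hl]) hu)
    rw [LinearMap.comp_apply, h2, map_sub, h3, sub_zero]

section Height

variable {G : Type u} [Group G] (φ : G →* Multiplicative ℤ)

/-- Existence of a height function on a free `G`-set. -/
lemma exists_height {X : Type v} [MulAction G X]
    (hfree : ∀ (g : G) (x : X), g • x = x → g = 1) :
    ∃ η : X → ℤ, ∀ (g : G) (x : X), η (g • x) = ht φ g + η x := by
  classical
  let rep : X → X := fun x => (Quotient.mk'' x : MulAction.orbitRel.Quotient G X).out
  have hrep : ∀ x, ∃ g : G, g • rep x = x := by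
    intro x
    have : MulAction.orbitRel G X (rep x) x := Quotient.exact' (Quotient.out_eq'
        (Quotient.mk'' x : MulAction.orbitRel.Quotient G X))
    rw [MulAction.orbitRel_apply] at this
    obtain ⟨g, hg⟩ := this
    have hg' : g • x = rep x := hg
    exact ⟨g⁻¹, by rw [← hg', inv_smul_smul]⟩
  choose γ hγ using hrep
  refine ⟨fun x => ht φ (γ x), ?_⟩
  intro g x
  have h1 : rep (g • x) = rep x := by
    have : (Quotient.mk'' (g • x) : MulAction.orbitRel.Quotient G X) = Quotient.mk'' x := by
      apply Quotient.sound'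
      rw [MulAction.orbitRel_apply]
      exact ⟨g, rfl⟩
    simp only [rep, this]
  have h2 : γ (g • x) • rep x = g • x := by rw [← h1]; exact hγ _
  have h3 : (g * γ x)⁻¹ * γ (g • x) = 1 := by
    apply hfree _ (rep x)
    rw [mul_smul, h2, mul_inv_rev, mul_smul, inv_smul_smul]
    exact inv_smul_eq_iff.mpr (hγ x).symm
  have h4 : γ (g • x) = g * γ x := (inv_mul_eq_one.mp h3).symm
  show ht φ (γ (g • x)) = _
  rw [h4, ht_mul]

end Height

section Step

variable {G : Type u} [Group G]

/-- The telescoping sums used to solve `f - t f = - e`. -/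
noncomputable def tele {X : Type v} [MulAction G X] {M : Type w} [AddCommGroup M]
    [DistribMulAction G M] (t : G) (e : Ch X →ₗ[ℤ] M) (i : ℤ) (u : Ch X) : M :=
  - ∑ j ∈ Finset.range i.toNat, (t ^ j) • e (act ((t ^ j)⁻¹) u)
  + ∑ j ∈ Finset.range (-i).toNat, ((t ^ (j + 1))⁻¹) • e (act (t ^ (j + 1)) u)

lemma tele_step {X : Type v} [MulAction G X] {M : Type w} [AddCommGroup M]
    [DistribMulAction G M] (t : G) (e : Ch X →ₗ[ℤ] M) (i : ℤ) (u : Ch X) :
    tele t e i u - t • tele t e (i - 1) (act t⁻¹ u) = - e u := by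
  have r1 : ∀ j : ℕ, t • (t ^ j) • e (act ((t ^ j)⁻¹) (act t⁻¹ u)) =
      (t ^ (j + 1)) • e (act ((t ^ (j + 1))⁻¹) u) := by
    intro j
    rw [← act_mul, ← mul_smul, ← pow_succ', pow_succ' t j, mul_inv_rev]
  have r2 : ∀ j : ℕ, t • ((t ^ (j + 1))⁻¹) • e (act (t ^ (j + 1)) (act t⁻¹ u)) =
      ((t ^ j)⁻¹) • e (act (t ^ j) u) := by
    intro j
    rw [← act_mul, ← mul_smul]
    congr 2
    · rw [pow_succ, mul_inv_rev, mul_inv_cancel_left]
    · congr 1
      rw [pow_succ, mul_inv_cancel_right]
  unfold tele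
  rw [smul_add, smul_neg, Finset.smul_sum, Finset.smul_sum]
  simp only [r1, r2]
  rcases le_or_gt i 0 with hi | hi
  · have h1 : i.toNat = 0 := by omega
    have h2 : (i - 1).toNat = 0 := by omega
    obtain ⟨k, hk⟩ : ∃ k : ℕ, -i = k := ⟨(-i).toNat, by omega⟩
    have h3 : (-i).toNat = k := by omega
    have h4 : (-(i - 1)).toNat = k + 1 := by omega
    rw [h1, h2, h3, h4, Finset.sum_range_succ' (fun j => (t ^ j)⁻¹ • e (act (t ^ j) u)) k]
    simp only [Finset.range_zero, Finset.sum_empty, pow_zero, inv_one, one_smul, act_one]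
    abel
  · have h3 : (-i).toNat = 0 := by omega
    have h4 : (-(i - 1)).toNat = 0 := by omega
    obtain ⟨k, hk⟩ : ∃ k : ℕ, i = k + 1 := ⟨(i - 1).toNat, by omega⟩
    have h1 : i.toNat = k + 1 := by omega
    have h2 : (i - 1).toNat = k := by omega
    rw [h1, h2, h3, h4, Finset.sum_range_succ' (fun j => t ^ j • e (act (t ^ j)⁻¹ u)) k]
    simp only [Finset.range_zero, Finset.sum_empty, pow_zero, inv_one, one_smul, act_one]
    abel

lemma Van_ext (φ : G →* Multiplicative ℤ) (hφ : Function.Surjective φ) (m : ℕ)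
    (h1 : Van φ.ker (m + 3)) (h2 : Van φ.ker (m + 2)) : Van G (m + 3) := by
  classical
  obtain ⟨t, htt⟩ := hφ (Multiplicative.ofAdd 1)
  have ht1 : ht φ t = 1 := by simp [ht, htt]
  intro X _ _ hfree M _ _ c hc hcc
  have hfreeN : ∀ (g : φ.ker) (x : X), g • x = x → g = 1 := by
    intro g x h
    have := hfree (g : G) x h
    exact Subtype.ext this
  have actN : ∀ (n : φ.ker) (u : Ch X), act n u = act (n : G) u := fun n u => rfl
  obtain ⟨b₀, hb₀, hb₀'⟩ := h1 X hfreeN M c (fun g u => hc g u) hcc
  -- conjugation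
  have conj : ∀ (n : φ.ker) (g : G), ∃ n' : φ.ker, (n' : G) = g⁻¹ * n * g := by
    intro n g
    refine ⟨⟨g⁻¹ * n * g, ?_⟩, rfl⟩
    have := (inferInstance : φ.ker.Normal).conj_mem n n.2 g⁻¹
    simpa using this
  have twist : ∀ (g : G) (b : Ch X →ₗ[ℤ] M), (∀ (n : φ.ker) (u : Ch X), b (act n u) = n • b u) →
      ∀ (n : φ.ker) (u : Ch X), g • b (act g⁻¹ (act n u)) = n • g • b (act g⁻¹ u) := by
    intro g b hb n u
    obtain ⟨n', hn'⟩ := conj n g
    have e1 : act g⁻¹ (act n u) = act n' (act g⁻¹ u) := by
      rw [actN, actN, ← act_mul, ← act_mul, hn']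
      congr 2
      group
    have e2 : g * (g⁻¹ * (n : G) * g) = n * g := by group
    rw [e1, hb, Subgroup.smul_def, Subgroup.smul_def, ← mul_smul, ← mul_smul, hn', e2]
  let c₁ : Ch X →ₗ[ℤ] M :=
    { toFun := fun u => b₀ u - t • b₀ (act t⁻¹ u)
      map_add' := by intro u v; simp only [map_add, smul_add]; abel
      map_smul' := by
        intro a u
        simp only [map_smul, RingHom.id_apply, smul_sub]
        rw [smul_comm t a] }
  have hc₁ : ∀ u, c₁ u = b₀ u - t • b₀ (act t⁻¹ u) := fun u => rfl
  obtain ⟨e, he, he'⟩ := h2 X hfreeN M c₁ (by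
    intro n u
    rw [hc₁, hc₁, hb₀, twist t b₀ hb₀, smul_sub]) (by
    intro u hu
    rw [hc₁, ← bd_act, hb₀' u hu, hb₀' _ (act_mem_Gr _ hu), hc, smul_inv_smul, sub_self])
  obtain ⟨η, hη⟩ := exists_height φ (X := X) hfree
  let ηl : List X → ℤ := fun l => match l with
    | [] => 0
    | x :: _ => η x
  let f : Ch X →ₗ[ℤ] M := Finsupp.linearCombination ℤ (fun l => tele t e (ηl l) (single l 1))
  have hf : ∀ l, f (single l 1) = tele t e (ηl l) (single l 1) := by
    intro l; simp [f, Finsupp.linearCombination_single]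
  have hηl : ∀ (g : G) (l : List X), l ≠ [] → ηl (l.map (fun x => g • x)) = ht φ g + ηl l := by
    intro g l hl
    rcases l with _ | ⟨x, l⟩
    · exact absurd rfl hl
    · exact hη g x
  have htele : ∀ (i : ℤ) (n : φ.ker) (u : Ch X), tele t e i (act n u) = n • tele t e i u := by
    intro i n u
    unfold tele
    rw [smul_add, smul_neg, Finset.smul_sum, Finset.smul_sum]
    congr 1
    · congr 1
      apply Finset.sum_congr rfl
      intro j _
      exact twist (t ^ j) e he n u
    · apply Finset.sum_congr rfl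
      intro j _
      have := twist ((t ^ (j + 1))⁻¹) e he n u
      rw [inv_inv] at this
      exact this
  have hfN : ∀ (n : φ.ker) (u : Ch X), f (act n u) = n • f u := by
    intro n u
    have : (f ∘ₗ act n : Ch X →ₗ[ℤ] M) =
        (DistribSMul.toLinearMap ℤ M n) ∘ₗ f := by
      apply lin_ext
      intro l
      rw [LinearMap.comp_apply, LinearMap.comp_apply, DistribSMul.toLinearMap_apply]
      by_cases hl : l = []
      · subst hl
        have h0 : act n (single ([] : List X) 1) = single [] 1 := by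
          rw [act_single]; rfl
        have h1 := htele (ηl []) n (single [] 1)
        rw [h0] at h1
        rw [h0, hf]
        exact h1
      · have h0 : ηl (l.map (fun x => n • x)) = ηl l := by
          have := hηl (n : G) l hl
          rw [(mem_ker_iff_ht φ (n : G)).mp n.2, zero_add] at this
          exact this
        rw [hf l]
        have h1 := htele (ηl l) n (single l 1)
        rw [act_single] at h1 ⊢
        rw [hf, h0]
        exact h1
    exact LinearMap.congr_fun this u
  have hft : ∀ u ∈ Sp (Gr (m + 1) : Set (List X)), f u - t • f (act t⁻¹ u) = - e u := by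
    intro u hu
    have := eq_of_Sp (L := f - (DistribSMul.toLinearMap ℤ M t) ∘ₗ f ∘ₗ act t⁻¹)
      (L' := - e) (p := Gr (m + 1)) (u := u) (by
      intro l hl
      have hl' : l ≠ [] := by
        rintro rfl
        simp [Gr] at hl
      have h0 := hηl t⁻¹ l hl'
      rw [ht_inv, ht1] at h0
      have h1 := tele_step t e (ηl l) (single l 1)
      have e1 : (-1 : ℤ) + ηl l = ηl l - 1 := by ring
      rw [e1] at h0
      simp only [LinearMap.sub_apply, LinearMap.comp_apply, LinearMap.neg_apply,
        DistribSMul.toLinearMap_apply]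
      rw [hf l]
      rw [act_single] at h1 ⊢
      rw [hf, h0]
      exact h1) hu
    exact this
  let b₁ : Ch X →ₗ[ℤ] M := b₀ + f ∘ₗ bd
  have hb₁ : ∀ u, b₁ u = b₀ u + f (bd u) := fun u => rfl
  have hb₁N : ∀ (n : φ.ker) (u : Ch X), b₁ (act n u) = n • b₁ u := by
    intro n u
    rw [hb₁, hb₁, hb₀, bd_act, hfN, smul_add]
  have hb₁t : ∀ u ∈ Sp (Gr (m + 2) : Set (List X)), b₁ (act t u) = t • b₁ u := by
    intro u hu
    have hu' : act t u ∈ Sp (Gr (m + 2) : Set (List X)) := act_mem_Gr _ hu
    have q1 : b₀ (act t u) - t • b₀ u = e (bd (act t u)) := by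
      rw [he' _ hu', hc₁, ← act_mul, inv_mul_cancel, act_one]
    have q2 : f (bd (act t u)) - t • f (bd u) = - e (bd (act t u)) := by
      have := hft (bd (act t u)) (bd_mem_Gr hu')
      rw [← bd_act, ← act_mul, inv_mul_cancel, act_one] at this
      exact this
    have q3 : b₁ (act t u) - t • b₁ u = 0 := by
      rw [hb₁, hb₁, smul_add]
      have : b₀ (act t u) + f (bd (act t u)) - (t • b₀ u + t • f (bd u)) =
          (b₀ (act t u) - t • b₀ u) + (f (bd (act t u)) - t • f (bd u)) := by abel
      rw [this, q1, q2]; abel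
    exact sub_eq_zero.mp q3
  have hb₁G : ∀ (g : G), ∀ u ∈ Sp (Gr (m + 2) : Set (List X)), b₁ (act g u) = g • b₁ u := by
    let K : Subgroup G :=
      { carrier := {g | ∀ u ∈ Sp (Gr (m + 2) : Set (List X)), b₁ (act g u) = g • b₁ u}
        mul_mem' := by
          intro a b ha hb u hu
          rw [act_mul, ha _ (act_mem_Gr _ hu), hb u hu, mul_smul]
        one_mem' := by
          intro u _
          rw [act_one, one_smul]
        inv_mem' := by
          intro a ha u hu
          have := ha (act a⁻¹ u) (act_mem_Gr _ hu)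
          rw [← act_mul, mul_inv_cancel, act_one] at this
          rw [this, inv_smul_smul] }
    have hK : ∀ g : G, g ∈ K := by
      intro g
      have htK : t ∈ K := hb₁t
      have hmem : g * (t ^ (ht φ g))⁻¹ ∈ φ.ker := by
        rw [mem_ker_iff_ht, ht_mul, ht_inv, ht_zpow φ ht1]
        ring
      have hnK : g * (t ^ (ht φ g))⁻¹ ∈ K := by
        intro u _
        exact hb₁N ⟨_, hmem⟩ u
      have := K.mul_mem hnK (K.zpow_mem htK (ht φ g))
      simpa using this
    exact hK
  refine ⟨Finsupp.linearCombination ℤ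
    (fun l => if l.length = m + 2 then b₁ (single l 1) else 0), ?_, ?_⟩
  · intro g u
    have : (Finsupp.linearCombination ℤ
        (fun l : List X => if l.length = m + 2 then b₁ (single l 1) else 0)) ∘ₗ act g =
        (DistribSMul.toLinearMap ℤ M g) ∘ₗ (Finsupp.linearCombination ℤ
        (fun l : List X => if l.length = m + 2 then b₁ (single l 1) else 0)) := by
      apply lin_ext
      intro l
      rw [LinearMap.comp_apply, LinearMap.comp_apply, DistribSMul.toLinearMap_apply,
        act_single, Finsupp.linearCombination_single, Finsupp.linearCombination_single,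
        one_smul, one_smul, List.length_map]
      split_ifs with h
      · rw [← hb₁G g _ (single_mem_Sp (p := Gr (m + 2)) h 1), act_single]
      · rw [smul_zero]
    exact LinearMap.congr_fun this u
  · intro u hu
    have : (Finsupp.linearCombination ℤ
        (fun l : List X => if l.length = m + 2 then b₁ (single l 1) else 0)) (bd u) =
        b₁ (bd u) := by
      apply eq_of_Sp (p := Gr (m + 2)) _ (bd_mem_Gr hu)
      intro l hl
      rw [Finsupp.linearCombination_single, one_smul, if_pos (mem_Gr.mp hl)]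
    rw [this, hb₁, bd_bd, map_zero, add_zero, hb₀' u hu]

lemma Van_of_PolyZ : ∀ (n : ℕ) (G : Type u) [Group G], PolyZ n G → ∀ m, n + 2 ≤ m → Van G m
  | 0, G, _, h => by
    have : Subsingleton G := h
    exact fun m _ => Van_of_subsingleton G m
  | n + 1, G, _, h => by
    obtain ⟨φ, hφ, h'⟩ := h
    intro m hm
    obtain ⟨m', rfl⟩ : ∃ m', m = m' + 3 := ⟨m - 3, by omega⟩
    exact Van_ext φ hφ m' (Van_of_PolyZ n φ.ker h' _ (by omega))
      (Van_of_PolyZ n φ.ker h' _ (by omega))

end Step

end Vale.Agent.P188
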